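import Vale.Agent.P144DC.Prod
import Vale.Agent.P144P.Pw
import Vale.Agent.P144P.Osc

/-!
The `H`-function of a kernel, glued with the one of its regular part near the source.
-/

namespace Vale.Agent.P144DC

open Finset Vale.Agent.P144 Vale.Agent.P144P Vale.Agent.P144P.Inn
open Vale.Agent.P144.H170 (Pt bx D lap mem_bx bx_mono)
open Vale.Agent.P144.H135 (CT CT_one CT_zero CT_nonneg CT_le_one card_bx bx_step bx_step' bx_step'')

/-- The bound on the squares by the increments. -/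
noncomputable def gr (U W : Pt → ℝ) (x : Pt) : ℝ :=
  3 * (|D (0, 1) W (x - (0, 1))| + |D (1, 0) U x|) +
    3 * (|D (0, 1) W x| + |D (1, 0) U (x + (0, 1))|)

theorem gr_nonneg (U W : Pt → ℝ) (x : Pt) : 0 ≤ gr U W x := by unfold gr; positivity

/-- The data of a kernel `F` with the singular part `Q` at the origin. -/
structure Glue (n : ℕ) (U W : Pt → ℝ) (F Q : Fld) : Prop where
  supp : ∃ k, (∀ x ∉ bx 0 k, U x = 0) ∧ ∀ x ∉ bx 0 k, W x = 0
  lapU : ∀ x ∉ bx 0 n, 0 ≤ lap U x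
  lapW : ∀ x ∉ bx 0 n, lap W x ≤ 0 ∨
    (x ∉ bx 0 (64 * n) ∧ lap W x ≤ 20 * ∑ v ∈ AL.cnr x, lap U v)
  rel : ∀ x ∈ bx 0 (70 * n), x ∉ bx 0 n → U x - W x = F.A x ^ 2 ∧
    U (x + (1, 0)) - W x = F.B x ^ 2 ∧ U (x + (0, 1)) - W x = F.C x ^ 2 ∧ F.sq x ≤ gr U W x
  reg : ∀ x ∈ bx 0 (70 * n), (F.sub Q).Rl 0 x

theorem lap_out {u : Pt → ℝ} {k : ℕ} (h : ∀ x ∉ bx 0 k, u x = 0) {x : Pt} (hx : x ∉ bx 0 (k + 1)) :
    lap u x = 0 := by
  unfold lap
  rw [h _ fun h' => hx (bx_step' (Or.inl rfl) h'), h _ fun h' => hx (bx_step'' (Or.inl rfl) h'),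
    h _ fun h' => hx (bx_step' (Or.inr rfl) h'), h _ fun h' => hx (bx_step'' (Or.inr rfl) h'),
    h _ fun h' => hx (bx_mono (by lia) h')]
  ring

theorem gr_congr {U W U' W' : Pt → ℝ} {k : ℕ} (hU : ∀ x ∉ bx 0 k, U' x = U x)
    (hW : ∀ x ∉ bx 0 k, W' x = W x) {x : Pt} (hx : x ∉ bx 0 (k + 2)) : gr U' W' x = gr U W x := by
  have a1 : x ∉ bx 0 (k + 1) := fun h => hx (bx_mono (by lia) h)
  have a2 : x + (0, 1) ∉ bx 0 (k + 1) := fun h => hx (bx_step' (Or.inr rfl) h)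
  have a3 : x - (0, 1) ∉ bx 0 (k + 1) := fun h => hx (bx_step'' (Or.inr rfl) h)
  have d : ∀ {u u' : Pt → ℝ}, (∀ x ∉ bx 0 k, u' x = u x) → ∀ e : Pt, (e = (1, 0) ∨ e = (0, 1)) →
      ∀ y ∉ bx 0 (k + 1), D e u' y = D e u y := fun h e he y hy => by
    unfold D
    rw [h _ fun h' => hy (bx_step' he h'), h _ fun h' => hy (bx_mono (by lia) h')]
  unfold gr
  rw [d hW _ (Or.inr rfl) _ a3, d hU _ (Or.inl rfl) _ a1, d hW _ (Or.inr rfl) _ a1,
    d hU _ (Or.inl rfl) _ a2]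

/-- The local `H`-function of the regular part. -/
structure Loc (n : ℕ) (U W Gs Gf : Pt → ℝ) (G : Fld) (κ β : ℝ) : Prop where
  s : ∀ x ∈ bx 0 (64 * n), 0 ≤ lap Gs x
  f : ∀ x ∈ bx 0 (64 * n), lap Gf x ≤ 0
  q : ∀ x ∈ bx 0 (64 * n), G.sq x ≤ gr Gs Gf x
  u : Sm (fun y => U y - Gs y - κ) (8 * n) (641 * (n * β)) (2 * β)
  w : Sm (fun y => W y - Gf y - κ) (8 * n) (641 * (n * β)) (2 * β)

section

variable {n : ℕ} {U W : Pt → ℝ} {F Q : Fld} (h : Glue n U W F Q) (hn : 4 ≤ n) {β : ℝ} (hβ : 0 ≤ β)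

include h hn hβ

theorem Glue.loc (h1 : ∀ x ∈ bx 0 (65 * n), x ∉ bx 0 n → |F.A x ^ 2 - (F.sub Q).A x ^ 2| ≤ β ∧
      |F.B x ^ 2 - (F.sub Q).B x ^ 2| ≤ β ∧ |F.C x ^ 2 - (F.sub Q).C x ^ 2| ≤ β) :
    ∃ Gs Gf κ, Loc n U W Gs Gf (F.sub Q) κ β := by
  set G := F.sub Q with hG
  have hn' : (4 : ℝ) ≤ n := by exact_mod_cast hn
  have nβ' : β ≤ n * β := le_mul_of_one_le_left hβ (by linarith)
  obtain ⟨Gs, Gf, hH⟩ := Inn.loc (F := G) (R := 0) hn Multiset.nodup_zero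
    fun x hx => h.reg x (bx_mono (by lia) hx)
  have key : ∀ x ∈ bx 0 (64 * n), x ∉ bx 0 n → |U x - Gs x - (W x - Gf x)| ≤ β ∧
      |U (x + (1, 0)) - Gs (x + (1, 0)) - (W x - Gf x)| ≤ β ∧
      |U (x + (0, 1)) - Gs (x + (0, 1)) - (W x - Gf x)| ≤ β := fun x a b => by
    obtain ⟨r1, r2, r3, -⟩ := h.rel x (bx_mono (by lia) a) b
    obtain ⟨-, -, -, -, -, s1, s2, s3⟩ := hH x a
    obtain ⟨t1, t2, t3⟩ := h1 x (bx_mono (by lia) a) b
    rw [← r1, ← s1] at t1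
    rw [← r2, ← s2] at t2
    rw [← r3, ← s3] at t3
    exact ⟨t1.trans_eq' (congrArg _ (by ring)), t2.trans_eq' (congrArg _ (by ring)),
      t3.trans_eq' (congrArg _ (by ring))⟩
  have dU : ∀ x ∈ bx 0 (64 * n), x ∉ bx 0 n → |D (1, 0) (fun y => U y - Gs y) x| ≤ 2 * β ∧
      |D (0, 1) (fun y => U y - Gs y) x| ≤ 2 * β := fun x a b => by
    obtain ⟨t1, t2, t3⟩ := key x a b
    unfold D
    rw [abs_le] at t1 t2 t3
    rw [abs_le, abs_le]
    refine ⟨⟨?_, ?_⟩, ?_, ?_⟩ <;> linarith [t1.1, t1.2, t2.1, t2.2, t3.1, t3.2]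
  obtain ⟨κ, hκ⟩ := P144P.osc (fun y => U y - Gs y) (8 * n) (2 * β) (by lia) (by positivity)
    fun x a b => dU x (bx_mono (by lia) a) fun c => b (bx_mono (by lia) c)
  have hκ' : ∀ x ∈ bx 0 (5 * (8 * n)), x ∉ bx 0 (8 * n) → |U x - Gs x - κ| ≤ 640 * (n * β) :=
    fun x a b => (hκ x (bx_mono (by lia) a) fun c => b (bx_mono (by lia) c)).trans_eq (by
      push_cast
      ring)
  refine ⟨Gs, Gf, κ, fun x a => (hH x a).1, fun x a => (hH x a).2.1 (Multiset.notMem_zero _),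
    fun x a => (hH x a).2.2.2.2.1, fun x a b => ?_, fun x a b => ?_⟩
  · have := dU x (bx_mono (by lia) a) fun c => b (bx_mono (by lia) c)
    unfold D at this ⊢
    simp only [sub_sub_sub_cancel_right]
    exact ⟨(hκ' x a b).trans (by linarith), this⟩
  · obtain ⟨t1, t2, t3⟩ := key x (bx_mono (by lia) a) fun c => b (bx_mono (by lia) c)
    have u1 := (key _ (bx_mono (by lia) (bx_step a (Or.inl rfl)).1)
      fun c => b (bx_mono (by lia) (bx_step' (Or.inl rfl) c))).1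
    have u2 := (key _ (bx_mono (by lia) (bx_step a (Or.inr rfl)).1)
      fun c => b (bx_mono (by lia) (bx_step' (Or.inr rfl) c))).1
    have u3 := hκ' x a b
    unfold D
    rw [abs_le] at t1 t2 t3 u1 u2 u3
    rw [abs_le, abs_le, abs_le]
    refine ⟨⟨?_, ?_⟩, ⟨?_, ?_⟩, ?_, ?_⟩ <;>
      linarith [t1.1, t1.2, t2.1, t2.2, t3.1, t3.2, u1.1, u1.2, u2.1, u2.2, u3.1, u3.2]

theorem Glue.mass {Gs Gf : Pt → ℝ} {G : Fld} {κ : ℝ} (l : Loc n U W Gs Gf G κ β) (c : Pt) (r : ℕ)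
    (q : Pt → ℝ) (hq : ∀ x ∈ bx c r, q x ≤ gr (fun y => U y - CT 0 (2 * (8 * n)) y * (U y - Gs y - κ))
      (fun y => W y - CT 0 (2 * (8 * n)) y * (W y - Gf y - κ)) x) :
    ∑ x ∈ bx c r, q x ≤ 1152 * (162 * (54000 * (n * β))) * (r + 2) := by
  classical
  have nβ : 0 ≤ n * β := by positivity
  have hm : 0 < 8 * n := by lia
  have e1 : 80 * (641 * (n * β)) + 164 * ((8 * n : ℕ) : ℝ) * (2 * β) ≤ 54000 * (n * β) := by
    push_cast
    nlinarith
  have P1 := fun T => (l.u.prod hm (by positivity) (by positivity) T).trans e1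
  have P2 := fun T => (l.w.prod hm (by positivity) (by positivity) T).trans e1
  have φ0 : ∀ x ∉ bx 0 (32 * n), CT 0 (2 * (8 * n)) x = 0 := fun x hx =>
    CT0 hm fun c => hx (bx_mono (by lia) c)
  have φ1 : ∀ x ∈ bx 0 n, CT 0 (2 * (8 * n)) x = 1 := fun x hx =>
    CT_one (by lia) (bx_mono (by lia) hx)
  have φn : ∀ x, 0 ≤ CT 0 (2 * (8 * n)) x := fun x => CT_nonneg _ _ _
  have φl : ∀ x, 0 ≤ 1 - CT 0 (2 * (8 * n)) x := fun x => sub_nonneg.2 (CT_le_one _ _ _)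
  generalize CT 0 (2 * (8 * n)) = φ at *
  obtain ⟨k, k1, k2⟩ := h.supp
  have U0 : ∀ x ∉ bx 0 (k + 32 * n), U x - φ x * (U x - Gs x - κ) = 0 := fun x hx => by
    rw [φ0 x fun c => hx (bx_mono (by lia) c), k1 x fun c => hx (bx_mono (by lia) c)]
    ring
  have W0 : ∀ x ∉ bx 0 (k + 32 * n), W x - φ x * (W x - Gf x - κ) = 0 := fun x hx => by
    rw [φ0 x fun c => hx (bx_mono (by lia) c), k2 x fun c => hx (bx_mono (by lia) c)]
    ring
  obtain ⟨p, hp⟩ : ∃ p : Pt → ℝ, ∀ x, p x = (1 - φ x) * lap U x + φ x * lap Gs x :=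
    ⟨_, fun _ => rfl⟩
  have pn : ∀ x, 0 ≤ p x := fun x => by
    rw [hp]
    refine add_nonneg ?_ ?_
    · by_cases hx : x ∈ bx 0 n
      · rw [φ1 x hx, sub_self, zero_mul]
      · exact mul_nonneg (φl x) (h.lapU x hx)
    · by_cases hx : x ∈ bx 0 (32 * n)
      · exact mul_nonneg (φn x) (l.s x (bx_mono (by lia) hx))
      · rw [φ0 x hx, zero_mul]
  obtain ⟨g1, g2⟩ := gen (u := fun x => U x - φ x * (U x - Gs x - κ)) (p := p)
    (E := 54000 * (n * β)) (M := 0) U0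
    (fun x hx => lap_out U0 hx) (le_trans (le_of_eq (sum_congr rfl fun x _ => by
      rw [← abs_neg, hp]; congr 1; unfold lap; ring)) (P1 _))
    (le_of_eq (sum_eq_zero fun x _ => max_eq_left (by linarith [pn x])))
  simp only [abs_of_nonneg (pn _)] at g1
  have cn := AL.sum_sum_cnr pn (T := bx 0 (k + 32 * n + 1)) (S := bx 0 (k + 32 * n + 1))
    fun v hv => by
      rw [hp, φ0 v fun c => hv (bx_mono (by lia) c), lap_out k1 fun c => hv (bx_mono (by lia) c)]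
      ring
  have hneg : ∑ x ∈ bx 0 (k + 32 * n + 1),
      max 0 (-((1 - φ x) * -lap W x + φ x * -lap Gf x)) ≤ 80 * (54000 * (n * β)) := by
    have : ∀ x, max 0 (-((1 - φ x) * -lap W x + φ x * -lap Gf x)) ≤ 20 * ∑ v ∈ AL.cnr x, p v := by
      intro x
      have h0 : 0 ≤ ∑ v ∈ AL.cnr x, p v := sum_nonneg fun v _ => pn v
      refine max_le (by positivity) ?_
      have b1 : 0 ≤ φ x * -lap Gf x := by
        by_cases hx : x ∈ bx 0 (32 * n)
        · exact mul_nonneg (φn x) (neg_nonneg.2 (l.f x (bx_mono (by lia) hx)))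
        · rw [φ0 x hx, zero_mul]
      by_cases hx : x ∈ bx 0 n
      · rw [φ1 x hx] at b1 ⊢
        linarith
      rcases h.lapW x hx with c | ⟨c1, c2⟩
      · linarith [mul_nonneg (φl x) (neg_nonneg.2 c)]
      · have : ∑ v ∈ AL.cnr x, lap U v = ∑ v ∈ AL.cnr x, p v := sum_congr rfl fun v hv => by
          have : v ∉ bx 0 (32 * n) := fun c => c1 (by
            rw [AL.mem_cnr] at hv
            rw [mem_bx] at c ⊢
            simp only [Prod.fst_zero, Prod.snd_zero] at c ⊢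
            push_cast at c ⊢
            rcases hv with rfl | rfl | rfl | rfl <;> lia)
          rw [hp, φ0 v this]
          ring
        rw [φ0 x fun c => c1 (bx_mono (by lia) c), ← this]
        linarith
    refine (sum_le_sum fun x _ => this x).trans ?_
    rw [← mul_sum]
    linarith
  have W1 : ∀ x ∉ bx 0 (k + 32 * n), -(W x - φ x * (W x - Gf x - κ)) = 0 := fun x hx => by
    rw [W0 x hx, neg_zero]
  obtain ⟨-, g3⟩ := gen (u := fun x => -(W x - φ x * (W x - Gf x - κ)))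
    (p := fun x => (1 - φ x) * -lap W x + φ x * -lap Gf x) (E := 54000 * (n * β)) W1
    (fun x hx => lap_out W1 hx) (le_trans (le_of_eq (sum_congr rfl fun x _ => by
      congr 1; unfold lap; ring)) (P2 _)) hneg
  exact sq_sum (k := k + 32 * n + 1) (fun x hx => U0 x fun c => hx (bx_mono (by lia) c))
    (fun x hx => W0 x fun c => hx (bx_mono (by lia) c)) (fun x hx => lap_out U0 hx)
    (fun x hx => lap_out W0 hx) ((g2 _).trans (by linarith))
    (le_trans (le_of_eq (sum_congr rfl fun x _ => by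
      rw [← abs_neg]; congr 1; unfold lap; ring)) ((g3 _).trans (by linarith))) c r hq

theorem Glue.step (h1 : ∀ x ∈ bx 0 (65 * n), x ∉ bx 0 n → |F.A x ^ 2 - (F.sub Q).A x ^ 2| ≤ β ∧
      |F.B x ^ 2 - (F.sub Q).B x ^ 2| ≤ β ∧ |F.C x ^ 2 - (F.sub Q).C x ^ 2| ≤ β)
    (h2 : ∀ x ∈ bx 0 (70 * n), x ∉ bx 0 n → Q.sq x ≤ β) :
    (∀ x ∈ bx 0 (65 * n), (F.sub Q).sq x ≤ 4 * 10 ^ 15 * β) ∧ ∀ (c : Pt) (r : ℕ) (p : Pt → ℝ),
      (∀ x ∈ bx c r, x ∉ bx 0 (32 * n + 2) ∧ p x ≤ gr U W x) →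
        ∑ x ∈ bx c r, p x ≤ 4 * 10 ^ 15 * (n * β) * (r + 2) := by
  have hn' : (4 : ℝ) ≤ n := by exact_mod_cast hn
  have nβ : 0 ≤ n * β := by positivity
  obtain ⟨Gs, Gf, κ, l⟩ := h.loc hn hβ h1
  have main := h.mass hn hβ l
  have hm : 0 < 8 * n := by lia
  have e2 : 2 * β + 641 * (n * β) / (2 * ((8 * n : ℕ) : ℝ)) ≤ 43 * β := by
    push_cast
    rw [← le_sub_iff_add_le', div_le_iff₀ (by positivity)]
    nlinarith
  have I1 := fun x hx => (l.u.inc hm (by positivity) (by positivity) (Or.inl rfl) (x := x)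
    hx).trans e2
  have I2 := fun x hx => (l.w.inc hm (by positivity) (by positivity) (Or.inr rfl) (x := x)
    hx).trans e2
  have φ0 : ∀ x ∉ bx 0 (32 * n), CT 0 (2 * (8 * n)) x = 0 := fun x hx =>
    CT0 hm fun c => hx (bx_mono (by lia) c)
  generalize CT 0 (2 * (8 * n)) = φ at *
  have oU : ∀ x ∉ bx 0 (32 * n), U x - φ x * (U x - Gs x - κ) = U x := fun x hx => by
    rw [φ0 x hx]; ring
  have oW : ∀ x ∉ bx 0 (32 * n), W x - φ x * (W x - Gf x - κ) = W x := fun x hx => by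
    rw [φ0 x hx]; ring
  refine ⟨fun x hx => ?_, fun c r q hq => (main c r q fun x hx => ?_).trans ?_⟩
  rotate_left
  · rw [gr_congr oU oW (hq x hx).1]
    exact (hq x hx).2
  · exact mul_le_mul_of_nonneg_right (by linarith) (by positivity)
  have sub : bx x (4 * n + 2) ⊆ bx 0 (70 * n) := fun y hy => bx_mono (by lia) (bx_trans hx hy)
  have k3 := main x (4 * n + 2) (fun y => ((F.sub Q).sq y - 516 * β) / 2) fun y hy => by
    by_cases c : y ∈ bx 0 (32 * n + 2)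
    · have a0 : y ∈ bx 0 (5 * (8 * n)) := bx_mono (by lia) c
      have a1 : y + (0, 1) ∈ bx 0 (5 * (8 * n)) := bx_mono (by lia) (bx_step c (Or.inr rfl)).1
      have a2 : y - (0, 1) ∈ bx 0 (5 * (8 * n)) := bx_mono (by lia) (bx_step c (Or.inr rfl)).2
      have d1 : ∀ z ∈ bx 0 (5 * (8 * n)), |D (1, 0) Gs z| ≤
          |D (1, 0) (fun x => U x - φ x * (U x - Gs x - κ)) z| + 43 * β :=
        fun z hz => le_trans (le_of_eq (congrArg _ (by unfold D; ring)))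
          ((abs_sub _ _).trans (add_le_add le_rfl (I1 z hz)))
      have d2 : ∀ z ∈ bx 0 (5 * (8 * n)), |D (0, 1) Gf z| ≤
          |D (0, 1) (fun x => W x - φ x * (W x - Gf x - κ)) z| + 43 * β :=
        fun z hz => le_trans (le_of_eq (congrArg _ (by unfold D; ring)))
          ((abs_sub _ _).trans (add_le_add le_rfl (I2 z hz)))
      have g0 := gr_nonneg (fun x => U x - φ x * (U x - Gs x - κ))
        (fun x => W x - φ x * (W x - Gf x - κ)) y
      have := l.q y (bx_mono (by lia) c)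
      unfold gr at g0 this ⊢
      linarith [d1 _ a0, d1 _ a1, d2 _ a0, d2 _ a2]
    · have b : y ∉ bx 0 n := fun d => c (bx_mono (by lia) d)
      rw [gr_congr oU oW c]
      linarith [F.sq_sub Q y, (h.rel y (sub hy) b).2.2.2, h2 y (sub hy) b]
  rw [← sum_div, sum_sub_distrib, sum_const, nsmul_eq_mul, card_bx] at k3
  refine (pw (F.sub Q) 0 x n (by lia) (fun y hy => h.reg y (sub hy)) fun f hf =>
    absurd hf (Multiset.notMem_zero _)).trans ?_
  rw [div_mul_eq_mul_div, div_le_iff₀ (by positivity)]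
  push_cast at k3
  have b1 : (2 * (4 * (n : ℝ) + 2) + 1) ^ 2 * β ≤ 100 * (n ^ 2 * β) := by
    rw [← mul_assoc]
    exact mul_le_mul_of_nonneg_right (by nlinarith) hβ
  have b2 : n * β * (4 * n + 2 + 2) ≤ 5 * (n ^ 2 * β) := by nlinarith
  have b3 : 0 ≤ (n : ℝ) ^ 2 * β := by positivity
  linarith

end

/-- The regular part is small, and so is the kernel far from the source. -/
theorem Glue.main {n : ℕ} {U W : Pt → ℝ} {F Q : Fld} (h : Glue n U W F Q) (hn : 4 ≤ n) {q : ℝ}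
    (hq : ∀ x ∈ bx 0 (70 * n), x ∉ bx 0 n → Q.sq x ≤ q) :
    (∀ x ∈ bx 0 (65 * n), (F.sub Q).sq x ≤ 10 ^ 32 * q) ∧ ∀ (c : Pt) (r : ℕ) (p : Pt → ℝ),
      (∀ x ∈ bx c r, x ∉ bx 0 (32 * n + 2) ∧ p x ≤ gr U W x) →
        ∑ x ∈ bx c r, p x ≤ 10 ^ 33 * (n * q) * (r + 2) := by
  have q0 : 0 ≤ q := (Q.sq_nn _).trans (hq (2 * n, 0) (by rw [bx0]; simp; lia) (by
    rw [bx0]; simp; lia))
  obtain ⟨x₀, hx₀, hm⟩ := exists_max_image (bx (0 : Pt) (65 * n)) (F.sub Q).sq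
    ⟨0, H170.self_mem_bx _ _⟩
  set g := (F.sub Q).sq x₀ with hg
  have g0 : 0 ≤ g := Fld.sq_nn _ _
  have k : ∀ a b : ℝ, (a - b) ^ 2 ≤ g → b ^ 2 ≤ q →
      |a ^ 2 - (a - b) ^ 2| ≤ g / (8 * 10 ^ 15) + 10 ^ 16 * q := fun a b h1 h2 => by
    rw [abs_le]
    constructor
    · nlinarith [sq_nonneg ((a - b) / (8 * 10 ^ 15) + b), sq_nonneg b]
    · nlinarith [sq_nonneg ((a - b) / (8 * 10 ^ 15) - b), sq_nonneg b]
  obtain ⟨s1, s2⟩ := h.step hn (β := g / (8 * 10 ^ 15) + 10 ^ 16 * q) (by positivity)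
    (fun x a b => by
      have c1 := hm x a
      have c2 := hq x (bx_mono (by lia) a) b
      unfold Fld.sq at c1 c2
      simp only [Fld.sub] at c1 ⊢
      refine ⟨k _ _ ?_ ?_, k _ _ ?_ ?_, k _ _ ?_ ?_⟩ <;>
        nlinarith [sq_nonneg (F.A x - Q.A x), sq_nonneg (F.B x - Q.B x), sq_nonneg (F.C x - Q.C x),
          sq_nonneg (F.E x - Q.E x), sq_nonneg (Q.A x), sq_nonneg (Q.B x), sq_nonneg (Q.C x),
          sq_nonneg (Q.E x)])
    fun x a b => (hq x a b).trans (by nlinarith [div_nonneg g0 (by norm_num : (0:ℝ) ≤ 8 * 10 ^ 15)])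
  have g1 : g ≤ 8 * 10 ^ 31 * q := by
    have := s1 x₀ hx₀
    rw [← hg] at this
    linarith
  refine ⟨fun x hx => (hm x hx).trans (by linarith), fun c r p hp => (s2 c r p hp).trans ?_⟩
  refine mul_le_mul_of_nonneg_right ?_ (by positivity)
  have : (n : ℝ) * (g / (8 * 10 ^ 15) + 10 ^ 16 * q) ≤ n * (2 * 10 ^ 16 * q) :=
    mul_le_mul_of_nonneg_left (by linarith) (by positivity)
  nlinarith [mul_nonneg (Nat.cast_nonneg (α := ℝ) n) q0]

end Vale.Agent.P144DC
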