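import Vale.Agent.P144D.Defs

/-!
The bound on the lattice.
-/

namespace Vale.Agent.P144DC

open Vale.Agent.P144 Vale.Agent.P144Z

/-- The mixed correlations in any finite set: `s p` is at most the distance from the point `p` to
the other points and, if it is positive, to the complement. -/
def LM (J : ℝ) : Prop :=
  ∀ n m : ℕ, ∃ C : ℝ, ∀ (b : Option Config) (Λ : Finset Site) (x : Fin n → Site) (y : Fin m → Site)
    (j : Fin m → Fin 2) (s : Fin n ⊕ Fin m → ℕ), (b = none ∨ b = some fun _ => true) →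
    (∀ p, 0 < s p → ∀ v, zd v (Sum.elim x y p) ≤ s p → v ∈ Λ) →
    (∀ p q, p ≠ q → s p ≤ zd (Sum.elim x y p) (Sum.elim x y q)) →
      |lcor (gibbs J 0 (fun _ => 0) (Kc / J) b Λ) x y j| *
        (∏ i, ((s (Sum.inl i) : ℝ) + 1) ^ (1 / 8 : ℝ)) * ∏ k, ((s (Sum.inr k) : ℝ) + 1) ≤ C

end Vale.Agent.P144DC
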