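import Vale.Agent.P144Y.G.Cov
import Vale.Agent.P144F.Zero

/-!
Conditional expectations in separated boxes.
-/

namespace Vale.Agent.P144DC

open Finset Vale.Agent.P144 Vale.Agent.P144Y.G
open Vale.Agent.P144Z (zd)

section

variable {J lam β : ℝ} {V : Finset Site → ℝ} (b : Option Config) (Λ : Finset Site)

theorem gibbs_form : ∃ (η : Config) (w : Finset Site → ℝ), (∀ T, 0 ≤ w T) ∧
    ∑ T ∈ Λ.powerset, w T = 1 ∧
      ∀ F, gibbs J lam V β b Λ F = ∑ T ∈ Λ.powerset, F (ext Λ η T) * w T := by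
  have k : ∀ (H : Config → ℝ) (η : Config), ∃ w : Finset Site → ℝ, (∀ T, 0 ≤ w T) ∧
      ∑ T ∈ Λ.powerset, w T = 1 ∧
        ∀ F, P144.expect β H Λ η F = ∑ T ∈ Λ.powerset, F (ext Λ η T) * w T := fun H η => by
    have hZ : 0 < ∑ T ∈ Λ.powerset, Real.exp (-β * H (ext Λ η T)) :=
      sum_pos (fun _ _ => Real.exp_pos _) ⟨∅, empty_mem_powerset _⟩
    refine ⟨fun T => Real.exp (-β * H (ext Λ η T)) / _, fun T => div_nonneg (Real.exp_pos _).le hZ.le,
      by rw [← sum_div, div_self hZ.ne'], fun F => ?_⟩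
    simp only [P144.expect, sum_div, mul_div_assoc]
  cases b
  exacts [⟨_, k _ _⟩, ⟨_, k _ _⟩]

theorem gibbs_mono {F G : Config → ℝ} (h : ∀ σ, F σ ≤ G σ) :
    gibbs J lam V β b Λ F ≤ gibbs J lam V β b Λ G := by
  obtain ⟨η, w, w0, -, e⟩ := gibbs_form (J := J) (lam := lam) (β := β) (V := V) b Λ
  rw [e, e]
  exact sum_le_sum fun T _ => mul_le_mul_of_nonneg_right (h _) (w0 T)

theorem gibbs_aff (c d : ℝ) (F : Config → ℝ) :
    gibbs J lam V β b Λ (fun σ => c * F σ + d) = c * gibbs J lam V β b Λ F + d := by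
  obtain ⟨η, w, -, w1, e⟩ := gibbs_form (J := J) (lam := lam) (β := β) (V := V) b Λ
  simp only [e, add_mul, sum_add_distrib, mul_assoc, ← mul_sum, w1, mul_one]

theorem gibbs_abs {F G : Config → ℝ} (h : ∀ σ, |F σ| ≤ G σ) :
    |gibbs J lam V β b Λ F| ≤ gibbs J lam V β b Λ G := by
  refine abs_le.2 ⟨?_, gibbs_mono b Λ fun σ => (le_abs_self _).trans (h σ)⟩
  have := gibbs_mono (J := J) (lam := lam) (β := β) (V := V) b Λ (F := fun σ => -1 * G σ + 0)
    (G := F) fun σ => by linarith [neg_abs_le (F σ), h σ]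
  rw [gibbs_aff] at this
  linarith

end

theorem dlr_gen (J β : ℝ) {Λ L : Finset Site} (h : L ⊆ Λ) (η : Config) {H r : Config → ℝ}
    (r1 : ∀ σ T, r (ext L σ T) = r σ)
    (r2 : ∀ σ, H σ = energy J 0 Vk (fun A => (A ∩ L).Nonempty) σ + r σ) (F G : Config → ℝ)
    (hG : ∀ σ T, G (ext L σ T) = G σ) :
    P144.expect β H Λ η (fun σ => F σ * G σ) =
      P144.expect β H Λ η fun σ => gibbs J 0 Vk β (some σ) L F * G σ := by
  simp only [gibbs, P144.expect]
  refine congrArg (· / _) ?_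
  rw [sum_split h, sum_split h fun T => _ / _ * _ * _]
  refine sum_congr rfl fun T hT => ?_
  have e := fun T' (hT' : T' ∈ L.powerset) =>
    ext_union h η (mem_powerset.1 hT) (mem_powerset.1 hT')
  refine (sum_congr rfl fun T' hT' => by rw [e T' hT']).trans
    (Eq.trans ?_ (sum_congr rfl fun T' hT' => by rw [e T' hT']).symm)
  simp only [ext_ext, hG, r2, r1, mul_add, Real.exp_add]
  generalize ext Λ η T = σ
  have hZ : 0 < ∑ T ∈ L.powerset,
      Real.exp (-β * energy J 0 Vk (fun A => (A ∩ L).Nonempty) (ext L σ T)) :=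
    sum_pos (fun _ _ => Real.exp_pos _) ⟨∅, empty_mem_powerset _⟩
  rw [← mul_sum, ← sum_mul, ← mul_assoc, mul_right_comm (_ / _), div_mul_cancel₀ _ hZ.ne',
    sum_mul, sum_mul]
  exact sum_congr rfl fun _ _ => by ring

open Classical in
theorem split_free (J : ℝ) {Λ L : Finset Site} (h : ∀ u ∈ L, ∀ v, zd u v ≤ 1 → v ∈ Λ) :
    ∃ r : Config → ℝ, (∀ σ T, r (ext L σ T) = r σ) ∧ ∀ σ, energy J 0 Vk (fun A => A ⊆ Λ) σ =
      energy J 0 Vk (fun A => (A ∩ L).Nonempty) σ + r σ := by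
  have h0 : L ⊆ Λ := fun u hu => h u hu u (by simp [zd])
  have w1 := window_win Λ
  have w2 : Window L (win Λ) := ⟨h0.trans w1.1, fun u hu => w1.2 u (h0 hu)⟩
  refine ⟨fun σ => -(1 / 2 * ∑ u ∈ win Λ, ∑ v ∈ win Λ, if (u ∈ Λ ∧ v ∈ Λ) ∧ u ∉ L ∧ v ∉ L then
    cpl J 0 u v * (sp (σ u) * sp (σ v)) else 0), fun σ T => ?_, fun σ => ?_⟩
  · refine congrArg (fun t => -(1 / 2 * t)) (sum_congr rfl fun u _ => sum_congr rfl fun v _ => ?_)
    split_ifs with c
    · rw [ext_out _ _ c.2.1, ext_out _ _ c.2.2]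
    · rfl
  · rw [energy_pairs (Phi_pair J 0) (fun _ h => Phi_supp h) w1 (Q := fun x => x ∈ Λ)
      (fun u v => by rw [insert_subset_iff, singleton_subset_iff]; tauto),
      energy_pairs (Phi_pair J 0) (fun _ h => Phi_supp h) w2
      (Q := fun _ => True) (fun u v => inter_pair u v), ← neg_add, ← mul_add, ← sum_add_distrib]
    refine congrArg (fun t => -(1 / 2 * t)) (sum_congr rfl fun u _ => ?_)
    rw [← sum_add_distrib]
    refine sum_congr rfl fun v _ => ?_
    by_cases c : 1 < zd u v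
    · simp [P144F.cpl_zero J c]
    have a1 := @h0 u
    have a2 := @h0 v
    have a3 := fun a => h u a v (not_lt.1 c)
    have a4 := fun a => h v a u (by rw [P144F.zd_comm]; exact not_lt.1 c)
    by_cases c1 : u ∈ L <;> by_cases c2 : v ∈ L <;> by_cases c3 : u ∈ Λ <;> simp_all

/-- Conditional expectations for any boundary condition. -/
theorem dlr_all (J β : ℝ) (b : Option Config) {Λ L : Finset Site}
    (h : ∀ u ∈ L, ∀ v, zd u v ≤ 1 → v ∈ Λ) (F G : Config → ℝ) (hG : ∀ σ T, G (ext L σ T) = G σ) :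
    gibbs J 0 Vk β b Λ (fun σ => F σ * G σ) =
      gibbs J 0 Vk β b Λ fun σ => gibbs J 0 Vk β (some σ) L F * G σ := by
  have h0 : L ⊆ Λ := fun u hu => h u hu u (by simp [zd])
  cases b with
  | none =>
    obtain ⟨r, r1, r2⟩ := split_free J h
    exact dlr_gen J β h0 _ r1 r2 F G hG
  | some η => exact dlr J β h0 η F G hG

/-- `F` depends on the spins in `L` only. -/
def Dep (L : Finset Site) (F : Config → ℝ) : Prop :=
  ∀ σ σ' : Config, (∀ x ∈ L, σ x = σ' x) → F σ = F σ'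

theorem cond_ext (J β : ℝ) {L L' : Finset Site} {F : Config → ℝ} (hF : Dep L F)
    (h : ∀ u ∈ L, ∀ v ∈ L', 1 < zd u v) (σ : Config) (T : Finset Site) :
    gibbs J 0 Vk β (some (ext L' σ T)) L F = gibbs J 0 Vk β (some σ) L F := by
  rw [gibbs_knight J 0 β (window_win L), gibbs_knight J 0 β (window_win L)]
  refine congrArg₂ _ (funext fun i => congrArg _ (sum_congr rfl fun v _ => ?_))
    (funext fun s => hF _ _ fun x hx => by rw [exs_mem hx, exs_mem hx])
  by_cases c : v ∈ L'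
  · rw [P144F.cpl_zero J (h i i.2 v c), zero_mul, zero_mul]
  · rw [ext_out _ _ c]

/-- Conditioning in all boxes. -/
theorem dlr_prod (J β : ℝ) (b : Option Config) {Λ : Finset Site} {ι : Type} (s : Finset ι)
    {B : ι → Finset Site} {F : ι → Config → ℝ} (hB : ∀ i ∈ s, ∀ u ∈ B i, ∀ v, zd u v ≤ 1 → v ∈ Λ)
    (hF : ∀ i ∈ s, Dep (B i) (F i))
    (hs : ∀ i ∈ s, ∀ k ∈ s, i ≠ k → ∀ u ∈ B i, ∀ v ∈ B k, 1 < zd u v) (H : Config → ℝ)
    (hH : ∀ i ∈ s, ∀ σ T, H (ext (B i) σ T) = H σ) :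
    gibbs J 0 Vk β b Λ (fun σ => (∏ i ∈ s, F i σ) * H σ) =
      gibbs J 0 Vk β b Λ fun σ => (∏ i ∈ s, gibbs J 0 Vk β (some σ) (B i) (F i)) * H σ := by
  classical
  induction s using Finset.induction_on generalizing H with
  | empty => simp
  | insert i s hi ih =>
    have m := mem_insert_self i s
    have n : ∀ k ∈ s, k ∈ insert i s ∧ i ≠ k := fun k hk =>
      ⟨mem_insert_of_mem hk, fun e => hi (e ▸ hk)⟩
    simp only [prod_insert hi, mul_assoc]
    rw [dlr_all J β b (hB i m) _ _ fun σ T => by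
      rw [hH i m, prod_congr rfl fun k hk => hF k (n k hk).1 _ σ fun x hx => ext_out _ _ fun c => by
        simpa [zd] using hs i m k (n k hk).1 (n k hk).2 x c x hx]]
    simp only [mul_left_comm (gibbs J 0 Vk β (some _) (B i) (F i))]
    exact ih (fun k hk => hB k (n k hk).1) (fun k hk => hF k (n k hk).1)
      (fun k hk l hl => hs k (n k hk).1 l (n l hl).1) _ fun k hk σ T => by
        rw [hH k (n k hk).1, cond_ext J β (hF i m) (hs i m k (n k hk).1 (n k hk).2)]

end Vale.Agent.P144DC
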