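import Vale.Agent.P144DC.Ker
import Vale.Agent.P144Z.St.Uniq

/-!
The correlations of centred energies in any finite set.
-/

namespace Vale.Agent.P144DC

open Finset Vale.Agent.P144
open Vale.Agent.P144.AL (cnr mem_cnr Pf cenK Lb eLo eHi)
open Vale.Agent.P144Z (zd)
open Vale.Agent.P144S (ce MM)
open Vale.Agent.P144S.F (lb sj wl cl ce_cnr sj_sq)

/-- The energy of an edge. -/
def en (v : Site) (j : Fin 2) (σ : Config) : ℝ := sp (σ v) * sp (σ (v + dir j))

/-- The critical model. -/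
noncomputable abbrev gb (J : ℝ) (b : Option Config) (Λ : Finset Site) : (Config → ℝ) → ℝ :=
  gibbs J 0 (fun _ => 0) (Kc / J) b Λ

/-- The bound on the energies centred near `t`. -/
def EO (J : ℝ) (b : Option Config) (t : Site → Fin 2 → ℝ) (C : ℝ) : Prop :=
  ∀ (m : ℕ) (A : ℝ) (Λ : Finset Site) (y : Fin m → Site) (j : Fin m → Fin 2) (d : Fin m → ℕ)
    (u : Fin m → ℝ), 0 ≤ A → (∀ k, 400 ≤ d k) → (∀ k v, zd v (y k) ≤ d k → v ∈ Λ) →
    (∀ k l, k ≠ l → d k ≤ zd (y k) (y l)) → (∀ k, |u k - t (y k) (j k)| ≤ A / d k) →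
      |gb J b Λ fun σ => ∏ k, (en (y k) (j k) σ - u k)| ≤ (2 * m).factorial * ∏ k, (C + A) / d k

theorem zd_dir (v : Site) (j : Fin 2) : zd (v + dir j) v = 1 := by
  unfold zd dir
  split_ifs <;> simp

theorem zd_self (v : Site) : zd v v = 0 := by simp [zd]

theorem zd_symm (u v : Site) : zd u v = zd v u := by
  unfold zd
  omega

theorem reps (P : Finset Site) :
    ∃ T : Finset Site, (∀ t ∈ T, id t ∉ P) ∧ ∀ v ∉ P, ∃ t ∈ T, P144Y.Cn P v (id t) := by
  obtain ⟨M, hM⟩ : ∃ M : ℕ, P ⊆ P144.box M := (H436.subset_box P).exists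
  refine ⟨P144.box (M + 1) \ P, fun t ht => (mem_sdiff.1 ht).2, fun v => ?_⟩
  induction hn : v.1.natAbs + v.2.natAbs using Nat.strong_induction_on generalizing v with
  | _ n ih =>
    intro hv
    by_cases c : v ∈ P144.box (M + 1)
    · exact ⟨v, mem_sdiff.2 ⟨c, hv⟩, Relation.ReflTransGen.refl⟩
    have key : ∀ w : Site, w.1.natAbs + w.2.natAbs < n → ((M : ℤ) < w.1.natAbs ∨ (M : ℤ) < w.2.natAbs) →
        (v.1 - w.1).natAbs + (v.2 - w.2).natAbs = 1 →
        ∃ t ∈ P144.box (M + 1) \ P, P144Y.Cn P v (id t) := fun w h1 h2 h3 => by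
      have hw : w ∉ P := fun a => by
        have := hM a
        rw [H436.mem_box, abs_le, abs_le] at this
        omega
      obtain ⟨t, t1, t2⟩ := ih _ h1 w rfl hw
      refine ⟨t, t1, Relation.ReflTransGen.head ⟨hw, ?_⟩ t2⟩
      rw [Int.abs_eq_natAbs, Int.abs_eq_natAbs]
      omega
    rw [H436.mem_box, abs_le, abs_le] at c
    by_cases c1 : (M : ℤ) + 1 < v.1
    · exact key (v.1 - 1, v.2) (by simp only; omega) (by simp only; omega) (by simp only; omega)
    by_cases c2 : v.1 < -((M : ℤ) + 1)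
    · exact key (v.1 + 1, v.2) (by simp only; omega) (by simp only; omega) (by simp only; omega)
    by_cases c3 : (M : ℤ) + 1 < v.2
    · exact key (v.1, v.2 - 1) (by simp only; omega) (by simp only; omega) (by simp only; omega)
    · exact key (v.1, v.2 + 1) (by simp only; omega) (by simp only; omega) (by simp only; omega)

theorem prod_fin {m : ℕ} (f : Fin m → ℝ) : ((List.finRange m).map f).prod = ∏ k, f k := by
  rw [← List.ofFn_eq_map, List.prod_ofFn]

theorem sum_fin {m : ℕ} (f : Fin m → ℝ) : ((List.finRange m).map f).sum = ∑ k, f k := by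
  rw [← List.ofFn_eq_map, List.sum_ofFn]

/-- The Pfaffian of a centred kernel. -/
theorem pf_ker {C A : ℝ} {m : ℕ} {d : Fin m → ℕ} {u t : Fin m → ℝ}
    {K : Fin m × Bool → Fin m × Bool → ℝ} (hC : 0 ≤ C) (hA : 0 ≤ A) (h0 : ∀ k, 400 ≤ d k)
    (hu : ∀ k, |u k - t k| ≤ A / d k) (hd : ∀ k, |K (k, false) (k, true) - t k| ≤ C / d k)
    (ho : ∀ x y, x.1 ≠ y.1 → K x y ^ 2 ≤ C ^ 2 / (d x.1 * d y.1)) :
    |Pf (cenK K (fun k => (k, false)) (fun k => (k, true)) u (List.finRange m))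
      (lb (List.finRange m))| ≤ (2 * m).factorial * ∏ k, (C + A) / d k := by
  refine pf_lb (by linarith) (fun k => by exact_mod_cast (by linarith [h0 k])) (fun k => ?_)
    fun x y h => ?_
  · simp only [cenK, sum_fin, Prod.mk.injEq, and_true, and_self, sum_ite_eq, mem_univ, if_true]
    rw [add_div]
    linarith [abs_sub_le (K (k, false) (k, true)) (t k) (u k), hd k, hu k, abs_sub_comm (t k) (u k)]
  · rw [cenK, List.sum_eq_zero fun z hz => by
      obtain ⟨k, -, rfl⟩ := List.mem_map.1 hz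
      exact if_neg fun c => h (by rw [c.1, c.2]), sub_zero]
    refine (ho x y h).trans (div_le_div_of_nonneg_right ?_ (by positivity))
    nlinarith

variable {J : ℝ} (hJ : 0 < J)

include hJ

theorem eo_plus : ∃ C t, 0 ≤ C ∧ EO J (some fun _ => true) t C := by
  obtain ⟨C, τ, hC, h⟩ := ker
  refine ⟨C, fun v j => sj j * τ (ce v j false) (ce v j true), hC,
    fun m A P y j d u hA h0 h1 h2 h3 => ?_⟩
  obtain ⟨T, t1, t2⟩ := reps P
  have z : ∀ x : Fin m × Bool, zd (cl y j x).2 (y x.1) ≤ 1 := fun x => by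
    unfold cl ce
    split_ifs
    exacts [(zd_dir _ _).le, (zd_self _).trans_le zero_le_one]
  have e := P144Y.F.mixed (v := y) (j := j) (P := P) (fun k l a e => by
    have := zd_dir (y k) (j k)
    have := zd_dir (y l) (j l)
    have := h2 k l a
    have := h0 k
    rw [← e] at *
    unfold zd at *
    omega) (fun k => h1 k _ (by rw [zd_dir]; linarith [h0 k])) hJ t1 t2 0 (List.nodup_finRange m) u
  simp only [Multiset.map_zero, Multiset.prod_zero, one_mul, prod_fin, zero_add] at e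
  have Z : 0 < ∑ S ∈ T.powerset, MM P (S.val.map id) :=
    sum_pos (fun _ _ => P144S.W.MM_pos _ _) ⟨∅, by simp⟩
  refine (congrArg abs e).trans_le ?_
  rw [abs_div, abs_of_pos Z, div_le_iff₀ Z, mul_sum]
  refine (abs_sum_le_sum_abs _ _).trans (sum_le_sum fun S hS => ?_)
  rw [abs_mul, abs_of_pos (P144S.W.MM_pos _ _), mul_comm]
  refine mul_le_mul_of_nonneg_right ?_ (P144S.W.MM_pos _ _).le
  have k := h P _ _ (ks_plus (R := S.val.map id) fun f hf => by
    obtain ⟨x, a, rfl⟩ := Multiset.mem_map.1 hf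
    exact t1 x (mem_powerset.1 hS a))
  have w : ∀ x, wl j x ^ 2 = 1 := fun x => by
    unfold wl
    split_ifs
    exacts [by rw [sq, sj_sq], one_pow _]
  refine pf_ker hC hA h0 h3 (fun l => ?_) fun x x' a => ?_
  · have := (k (cl y j (l, false)) (cl y j (l, true)) (y l) (d l) (ce_cnr _ _ _) (ce_cnr _ _ _)
      (z (l, true)) (h0 l) (h1 l)).1 (z (l, false)) (Or.inr rfl)
    have s : |sj (j l)| = 1 := by unfold sj; split_ifs <;> simp
    simp only [P144S.F.KK, wl, Bool.false_eq_true, if_false, if_true, one_mul]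
    rw [← mul_sub, abs_mul, s, one_mul]
    exact this
  · rw [P144S.F.KK, mul_pow, mul_pow, w, w, one_mul, one_mul]
    exact (k _ _ (y x'.1) (d x'.1) (ce_cnr _ _ _) (ce_cnr _ _ _) (z x') (h0 _) (h1 _)).2 (y x.1)
      (d x.1) (z x) (h0 _) (h1 _) (by rw [zd_symm]; exact h2 _ _ a.symm) (h2 _ _ a)

theorem eo_free : ∃ C t, 0 ≤ C ∧ EO J none t C := by
  obtain ⟨C, τ, hC, h⟩ := ker
  refine ⟨C, fun v j => AL.ep (eLo v) (eHi v j) * τ (eLo v) (eHi v j), hC,
    fun m A Λ y j d u hA h0 h1 h2 h3 => ?_⟩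
  set N := ∑ k, ((y k).1.natAbs + (y k).2.natAbs) + 2 with hN
  have e := P144T.E.mix (n := 0) (N := N) (u := Fin.elim0) (v := y) (j := j) (Λ := Λ) hJ
    ⟨fun i => i.elim0, fun k => by
      have := single_le_sum (f := fun k => (y k).1.natAbs + (y k).2.natAbs)
        (fun _ _ => Nat.zero_le _) (mem_univ k)
      rw [Int.abs_eq_natAbs, Int.abs_eq_natAbs]
      omega, fun i => i.elim0, fun k l e => by_contra fun a => by
      have := h2 k l a
      have := h0 k
      rw [e, zd_self] at *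
      omega, fun i => i.elim0⟩ (by omega) ⟨fun i => i.elim0, fun k => h1 k _ (by simp [zd_self]),
      fun k => h1 k _ (by rw [zd_dir]; linarith [h0 k])⟩ (List.nodup_finRange m) u
  set g : Fin m × Bool → Lb 0 m := fun x => if x.2 then .hi x.1 else .lo x.1 with hg
  have e1 : AL.lbs (n := 0) (List.finRange m) [] = (lb (List.finRange m)).map g := by
    simp [AL.lbs, lb, AL.flat_map, hg]
  have e2 : AL.srcs (Fin.elim0 : Fin 0 → Site) = [] := rfl
  have e3 : AL.fcs [] = 0 := rfl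
  have e4 : H436.MM Λ 0 = 1 := div_self (AL.QQ_pos _ _).ne'
  simp only [AL.GG, AL.SG, e1, e2, e3, e4, List.map_nil, List.append_nil, List.prod_nil, one_mul,
    prod_fin, AL.el, AL.Pf_map] at e
  have e5 : (fun x x' => cenK (P144T.E.KK Λ N Fin.elim0 y j) Lb.lo Lb.hi u (List.finRange m) (g x)
      (g x')) = cenK (fun x x' => P144T.E.KK Λ N Fin.elim0 y j (g x) (g x')) (fun k => (k, false))
      (fun k => (k, true)) u (List.finRange m) := by
    funext ⟨k, b⟩ ⟨l, b'⟩
    cases b <;> cases b' <;> simp [cenK, hg]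
  refine (congrArg abs (e.trans (by rw [e5]))).trans_le ?_
  have k := h Λ _ _ (ks_free Λ)
  have c : ∀ x, (AL.cn N Fin.elim0 y j (g x)).1 ∈ cnr (AL.cn N Fin.elim0 y j (g x)).2 ∧
      zd (AL.cn N Fin.elim0 y j (g x)).2 (y x.1) ≤ 1 ∧ AL.wl Fin.elim0 y j (g x) ^ 2 = 1 := by
    rintro ⟨l, _ | _⟩
    · exact ⟨AL.eLo_cnr _, (zd_self _).trans_le zero_le_one, one_pow _⟩
    · refine ⟨AL.eHi_cnr _ _, (zd_self _).trans_le zero_le_one, ?_⟩
      simp [hg, AL.wl, AL.sk, e2, sq, AL.ep_sq]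
  refine pf_ker hC hA h0 h3 (fun l => ?_) fun x x' a => ?_
  · have := (k (eLo (y l)) (eHi (y l) (j l)) (y l) (d l) (AL.eLo_cnr _) (AL.eHi_cnr _ _)
      (c (l, true)).2.1 (h0 l) (h1 l)).1 (c (l, false)).2.1 (Or.inl rfl)
    have s : |AL.ep (eLo (y l)) (eHi (y l) (j l))| = 1 := by unfold AL.ep; split_ifs <;> simp
    simp only [P144T.E.KK, hg, AL.wl, AL.sk, AL.cn, e2, e3, Bool.false_eq_true, if_false, if_true,
      one_mul, List.map_nil, List.prod_nil, mul_one]
    rw [← mul_sub, abs_mul, s, one_mul]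
    exact this
  · rw [P144T.E.KK, mul_pow, mul_pow, (c _).2.2, (c _).2.2, one_mul, one_mul]
    exact (k _ _ (y x'.1) (d x'.1) (c x).1 (c x').1 (c x').2.1 (h0 _) (h1 _)).2 (y x.1)
      (d x.1) (c x).2.1 (h0 _) (h1 _) (by rw [zd_symm]; exact h2 _ _ a.symm) (h2 _ _ a)

end Vale.Agent.P144DC
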