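import Vale.Agent.P144Y.H.Cut

/-!
The Laplacian of `Hf` at a face outside the cells, with or without a disorder.
-/

namespace Vale.Agent.P144DC

open Finset Vale.Agent.P144 Vale.Agent.P144Y Vale.Agent.P144Y.H
open Vale.Agent.P144S.H (ih_in ih_out iv_in iv_out)
open Vale.Agent.P144S.M (cross_le)
open Vale.Agent.P144.AL (lap cnr mem_cnr quad_nonneg quad_lower quad_id four_cycle sum_cnr)

variable {P : Finset Site} {τ θ A B C D Hs Hf : Site → ℝ} (h : Spr P τ θ A B C D)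
  (hH : IsH A B C D Hs Hf)

include h hH

/-- The signs at the missing sides are arbitrary. -/
theorem lapf_sgn {i j : ℤ} (hf : ((i, j) : Site) ∉ P) {a b c d : ℝ} (ha : a * a = 1)
    (hb : b * b = 1) (hc : c * c = 1) (hd : d * d = 1) (ea : (i, j + 1) ∈ P → a = τ (i, j))
    (eb : (i, j - 1) ∈ P → b = τ (i, j - 1)) (ec : (i + 1, j) ∈ P → c = 1)
    (ed : (i - 1, j) ∈ P → d = 1)
    (q : 0 ≤ 2 * (B (i, j) ^ 2 + A (i, j) ^ 2 + D (i, j) ^ 2 + C (i, j) ^ 2) -
      2 * √2 * (b * (B (i, j) * A (i, j)) - a * (D (i, j) * C (i, j)) +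
        c * (B (i, j) * D (i, j)) + d * (A (i, j) * C (i, j)))) :
    lap Hf (i, j) ≤ 13 * ∑ v ∈ cnr (i, j), (hat P Hs Hf v - Hs v) := by
  have oA := hH.a i j
  have oB := hH.b i j
  have oC := hH.c i j
  have oD := hH.d i j
  have eN : Hf (i, j + 1) - Hf (i, j) ≤ -(C (i, j) ^ 2 + D (i, j) ^ 2) -
      2 * √2 * (a * (C (i, j) * D (i, j))) +
      5 / 2 * ((1 - ih P (i, j + 1)) * (Hs (i, j + 1) - Hf (i, j + 1)) +
        (1 - ih P (i, j + 1)) * (Hs (i + 1, j + 1) - Hf (i, j + 1))) := by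
    by_cases hn : ((i, j + 1) : Site) ∈ P
    · rw [ih_in (Or.inl hn), fN h hH (Or.inr hn), ea hn]; simp
    · rw [ih_out (by rw [add_sub_cancel_right]; tauto), eqV h hH hf hn, oC, oD]
      linarith [cross_le (C (i, j)) (D (i, j)) a ha]
  have eS : Hf (i, j - 1) - Hf (i, j) ≤ -(A (i, j) ^ 2 + B (i, j) ^ 2) +
      2 * √2 * (b * (A (i, j) * B (i, j))) +
      5 / 2 * ((1 - ih P (i, j)) * (Hs (i, j) - Hf (i, j)) +
        (1 - ih P (i, j)) * (Hs (i + 1, j) - Hf (i, j))) := by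
    by_cases hn : ((i, j - 1) : Site) ∈ P
    · rw [ih_in (Or.inr hn), fS h hH (Or.inr hn), eb hn]; simp
    · rw [ih_out (by tauto), eq_nbr h hH hf hn (by simp), oA, oB]
      have := cross_le (A (i, j)) (B (i, j)) (-b) (by linarith)
      linarith
  have eE : Hf (i + 1, j) - Hf (i, j) ≤ -(B (i, j) ^ 2 + D (i, j) ^ 2) +
      2 * √2 * (c * (B (i, j) * D (i, j))) +
      5 / 2 * ((1 - iv P (i + 1, j)) * (Hs (i + 1, j) - Hf (i + 1, j)) +
        (1 - iv P (i + 1, j)) * (Hs (i + 1, j + 1) - Hf (i + 1, j))) := by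
    by_cases hn : ((i + 1, j) : Site) ∈ P
    · rw [iv_in (Or.inl hn), fE h hH (Or.inr hn), ec hn]; simp
    · rw [iv_out (by rw [add_sub_cancel_right]; tauto), eqH h hH hf hn, oB, oD]
      have := cross_le (B (i, j)) (D (i, j)) (-c) (by linarith)
      linarith
  have eW : Hf (i - 1, j) - Hf (i, j) ≤ -(A (i, j) ^ 2 + C (i, j) ^ 2) +
      2 * √2 * (d * (A (i, j) * C (i, j))) +
      5 / 2 * ((1 - iv P (i, j)) * (Hs (i, j) - Hf (i, j)) +
        (1 - iv P (i, j)) * (Hs (i, j + 1) - Hf (i, j))) := by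
    by_cases hn : ((i - 1, j) : Site) ∈ P
    · rw [iv_in (Or.inr hn), fW h hH (Or.inr hn), ed hn]; simp
    · rw [iv_out (by tauto), eq_nbr h hH hf hn (by simp), oA, oC]
      have := cross_le (A (i, j)) (C (i, j)) (-d) (by linarith)
      linarith
  have a1 := mh hH P i j
  have a2 := mh hH P i (j + 1)
  have a3 := mv hH P i j
  have a4 := mv hH P (i + 1) j
  have b1 := (mh hH P (i - 1) j).1
  have b2 := (mv hH P i (j - 1)).1
  have b3 := (mh hH P (i + 1) j).2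
  have b4 := (mv hH P (i + 1) (j - 1)).1
  have b5 := (mh hH P (i - 1) (j + 1)).1
  have b6 := (mv hH P i (j + 1)).2
  have b7 := (mh hH P (i + 1) (j + 1)).2
  have b8 := (mv hH P (i + 1) (j + 1)).2
  rw [sum_cnr]
  unfold lap hat
  simp only [add_sub_cancel_right]
  linarith [a1.1, a1.2, a2.1, a2.2, a3.1, a3.2, a4.1, a4.2]

/-- The Laplacian of `hat` at a site whose four edges are present. -/
theorem lap_four {i j : ℤ} (hθ : θ (i - 1, j) = θ (i - 1, j - 1))
    (hP : (((i, j) : Site) ∈ P ∧ ((i - 1, j - 1) : Site) ∈ P) ∨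
      (((i - 1, j) : Site) ∈ P ∧ ((i, j - 1) : Site) ∈ P)) :
    2 * (A (i, j) ^ 2 + B (i - 1, j) ^ 2 + C (i, j - 1) ^ 2 + D (i - 1, j - 1) ^ 2) -
      2 * √2 * (θ (i - 1, j) * (A (i, j) * B (i - 1, j)) -
        θ (i - 1, j) * (C (i, j - 1) * D (i - 1, j - 1)) + A (i, j) * C (i, j - 1) +
        B (i - 1, j) * D (i - 1, j - 1)) ≤ lap (hat P Hs Hf) (i, j) := by
  have e1 := dN h hH (i := i) (j := j) (by tauto)
  have e2 := dS h hH (i := i) (j := j) (by tauto)
  have e3 := dE h hH (i := i) (j := j) (by tauto)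
  have e4 := dW h hH (i := i) (j := j) (by tauto)
  rw [← hθ] at e2
  have e : hat P Hs Hf (i, j) = Hs (i, j) := by
    unfold hat
    simp only
    rw [ih_in (by tauto), ih_in (by tauto), iv_in (by tauto), iv_in (by tauto)]
    ring
  have := le_hat hH P (i + 1, j)
  have := le_hat hH P (i - 1, j)
  have := le_hat hH P (i, j + 1)
  have := le_hat hH P (i, j - 1)
  unfold lap
  simp only
  linarith

/-- A hole with one face and a disorder. -/
theorem hole_face {i j : ℤ} (hN : ((i, j + 1) : Site) ∈ P) (hS : ((i, j - 1) : Site) ∈ P)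
    (hE : ((i + 1, j) : Site) ∈ P) (hW : ((i - 1, j) : Site) ∈ P)
    (t1 : θ (i - 1, j) = θ (i - 1, j - 1)) (t2 : θ (i, j) = θ (i, j - 1))
    (t3 : θ (i - 1, j + 1) = θ (i - 1, j)) (t4 : θ (i, j + 1) = θ (i, j))
    (hτ : τ (i, j) = -τ (i, j - 1)) :
    (6 - 4 * √2) * (A (i, j) ^ 2 + B (i, j) ^ 2 + C (i, j) ^ 2 + D (i, j) ^ 2) ≤
      ∑ v ∈ cnr (i, j), lap (hat P Hs Hf) v := by
  have l1 := lap_four h hH t1 (Or.inr ⟨hW, hS⟩)
  have l2 := lap_four h hH (i := i + 1) (j := j) (by rwa [add_sub_cancel_right])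
    (Or.inl ⟨hE, by rwa [add_sub_cancel_right]⟩)
  have l3 := lap_four h hH (i := i) (j := j + 1) (by rwa [add_sub_cancel_right])
    (Or.inl ⟨hN, by rwa [add_sub_cancel_right]⟩)
  have l4 := lap_four h hH (i := i + 1) (j := j + 1) (by simpa only [add_sub_cancel_right] using t4)
    (Or.inr ⟨by rwa [add_sub_cancel_right], by rwa [add_sub_cancel_right]⟩)
  rw [add_sub_cancel_right] at l2
  rw [add_sub_cancel_right, t3] at l3
  rw [add_sub_cancel_right, add_sub_cancel_right, t4] at l4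
  rw [(quad_id _ _ _ _ _ (h.θ2 _)).1] at l1 l4
  rw [(quad_id _ _ _ _ _ (h.θ2 _)).2] at l2 l3
  have eN := h.V i j (Or.inr hN)
  have eS := h.V i (j - 1) (Or.inl hS)
  have eE := h.H i j (Or.inr hE)
  have eW := h.H (i - 1) j (Or.inl hW)
  rw [sub_add_cancel] at eS eW
  have q2 := sqrt2_sq
  have th1 := h.θ2 (i - 1, j)
  have ta := h.τ2 (i, j)
  have f1 : √2 * A (i, j) - (θ (i - 1, j) * B (i - 1, j) + C (i, j - 1)) =
      C (i, j) + τ (i, j - 1) * B (i, j) - √2 * A (i, j) := by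
    rw [eW.1, eS.1]
    linear_combination (-(√2 * A (i, j) - C (i, j))) * th1
  have f2 : √2 * B (i, j) - (θ (i, j) * A (i + 1, j) + D (i, j - 1)) =
      D (i, j) + τ (i, j - 1) * A (i, j) - √2 * B (i, j) := by
    rw [eS.2, eE.1, eE.2]
    linear_combination (θ (i, j) * A (i + 1, j)) * q2
  have f3 : √2 * C (i, j) - (A (i, j + 1) - θ (i - 1, j) * D (i - 1, j)) =
      A (i, j) - τ (i, j) * D (i, j) - √2 * C (i, j) := by
    rw [eW.2, eN.1, eN.2]
    linear_combination (-(√2 * (√2 * A (i, j + 1) - τ (i, j) * B (i, j + 1)) - A (i, j))) * th1 +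
      A (i, j + 1) * q2 - A (i, j + 1) * ta
  have f4 : √2 * D (i, j) - (B (i, j + 1) - θ (i, j) * C (i + 1, j)) =
      B (i, j) - τ (i, j) * C (i, j) - √2 * D (i, j) := by
    have g1 : B (i, j + 1) = √2 * D (i, j) + τ (i, j) * C (i, j) := by
      rw [eN.1, eN.2]
      linear_combination (-(B (i, j + 1))) * q2 + B (i, j + 1) * ta
    have g2 : θ (i, j) * C (i + 1, j) = B (i, j) - √2 * D (i, j) := by
      rw [eE.1, eE.2]
      linear_combination (-(θ (i, j) * C (i + 1, j))) * q2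
    rw [g1, g2]; ring
  rw [f1] at l1
  rw [f2] at l2
  rw [f3, hτ, neg_mul, sub_neg_eq_add] at l3
  rw [f4, hτ, neg_mul, sub_neg_eq_add] at l4
  have key := four_cycle (A (i, j)) (B (i, j)) (C (i, j)) (D (i, j)) (τ (i, j - 1)) (h.τ2 _)
  rw [sum_cnr]
  simp only
  linarith [sq_nonneg (√2 * D (i - 1, j - 1) - (B (i - 1, j) - θ (i - 1, j) * C (i, j - 1))),
    sq_nonneg (√2 * C (i + 1, j - 1) - (A (i + 1, j) - θ (i, j) * D (i, j - 1))),
    sq_nonneg (√2 * B (i - 1, j + 1) - (θ (i - 1, j) * A (i, j + 1) + D (i - 1, j))),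
    sq_nonneg (√2 * A (i + 1, j + 1) - (θ (i, j) * B (i, j + 1) + C (i + 1, j)))]

/-- Outside the cells no condition on the disorders is needed. -/
theorem lapf_any {f : Site} (hf : f ∉ P)
    (hθ : ∀ v ∈ cnr f, θ (v.1 - 1, v.2) = θ (v.1 - 1, v.2 - 1)) :
    lap Hf f ≤ 20 * ∑ v ∈ cnr f, lap (hat P Hs Hf) v := by
  obtain ⟨i, j⟩ := f
  have s1 : ∑ v ∈ cnr (i, j), (hat P Hs Hf v - Hs v) ≤ ∑ v ∈ cnr (i, j), lap (hat P Hs Hf) v :=
    sum_le_sum fun v hv => lap_hat h hH (hθ v hv)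
  have s0 : 0 ≤ ∑ v ∈ cnr (i, j), (hat P Hs Hf v - Hs v) :=
    sum_nonneg fun v _ => sub_nonneg.2 (le_hat hH P v)
  have a2 := h.τ2 (i, j)
  have b2 := h.τ2 (i, j - 1)
  have q := fun x y z w => quad_nonneg x y z w _ b2
  have o : (1 : ℝ) * 1 = 1 := one_mul 1
  have o' : (-1 : ℝ) * -1 = 1 := by norm_num
  by_cases hτ : τ (i, j) = τ (i, j - 1)
  · linarith [lapf_out h hH hf hτ]
  replace hτ : τ (i, j) = -τ (i, j - 1) :=
    (mul_self_eq_mul_self_iff.1 (a2.trans b2.symm)).resolve_left hτ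
  by_cases hN : ((i, j + 1) : Site) ∈ P
  swap
  · linarith [lapf_sgn h hH hf b2 b2 o o (fun c => absurd c hN) (fun _ => rfl) (fun _ => rfl)
      (fun _ => rfl) (by linarith [q (B (i, j)) (A (i, j)) (D (i, j)) (C (i, j))])]
  by_cases hS : ((i, j - 1) : Site) ∈ P
  swap
  · linarith [lapf_sgn h hH hf a2 a2 o o (fun _ => rfl) (fun c => absurd c hS) (fun _ => rfl)
      (fun _ => rfl) (by linarith [quad_nonneg (B (i, j)) (A (i, j)) (D (i, j)) (C (i, j)) _ a2])]
  by_cases hE : ((i + 1, j) : Site) ∈ P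
  swap
  · linarith [lapf_sgn h hH hf a2 b2 o' o (fun _ => rfl) (fun _ => rfl) (fun c => absurd c hE)
      (fun _ => rfl) (by rw [hτ]; linarith [q (B (i, j)) (A (i, j)) (-D (i, j)) (C (i, j))])]
  by_cases hW : ((i - 1, j) : Site) ∈ P
  swap
  · linarith [lapf_sgn h hH hf a2 b2 o o' (fun _ => rfl) (fun _ => rfl) (fun _ => rfl)
      (fun c => absurd c hW) (by rw [hτ]; linarith [q (B (i, j)) (A (i, j)) (D (i, j)) (-C (i, j))])]
  have t := fun v hv => hθ v (mem_cnr.2 hv)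
  have k := hole_face h hH hN hS hE hW (t (i, j) (by simp))
    (by simpa using t (i + 1, j) (by simp)) (by simpa using t (i, j + 1) (by simp))
    (by simpa using t (i + 1, j + 1) (by simp)) hτ
  have e1 := fN h hH (Or.inr hN)
  have e2 := fS h hH (Or.inr hS)
  have e3 := fE h hH (Or.inr hE)
  have e4 := fW h hH (Or.inr hW)
  have l := quad_lower (B (i, j)) (A (i, j)) (D (i, j)) (C (i, j)) _ _ b2 a2
  have r : √2 ≤ 10 / 7 := by
    rw [Real.sqrt_le_left (by norm_num)]; norm_num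
  have p : 0 ≤ A (i, j) ^ 2 + B (i, j) ^ 2 + C (i, j) ^ 2 + D (i, j) ^ 2 := by positivity
  have := mul_le_mul_of_nonneg_right r p
  generalize ∑ v ∈ cnr (i, j), lap (hat P Hs Hf) v = S at k ⊢
  unfold lap
  simp only
  linarith

end Vale.Agent.P144DC
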