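import Vale.Agent.P144DC.Model
import Vale.Agent.P144Y.F.Asm
import Vale.Agent.P144Z.Top

/-!
The entries of the kernels; the bound on Pfaffians.
-/

namespace Vale.Agent.P144DC

open Finset Vale.Agent.P144 Vale.Agent.P144P
open Vale.Agent.P144.H170 (Pt bx mem_bx bx_mono)
open Vale.Agent.P144.AL (cnr mem_cnr Pf)
open Vale.Agent.P144Z (zd)
open Vale.Agent.P144S.F (lb sub_lb lb_prod)

theorem pf_le {α : Type*} {K : α → α → ℝ} {w : α → ℝ} (hw : ∀ x, 0 ≤ w x) (l : List α)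
    (h : ∀ x y, [x, y].Sublist l → |K x y| ≤ w x * w y) :
    |Pf K l| ≤ l.length.factorial * (l.map w).prod := by
  have nn : ∀ l : List α, 0 ≤ (l.map w).prod := fun l => List.prod_nonneg fun z hz => by
    obtain ⟨x, -, rfl⟩ := List.mem_map.1 hz
    exact hw x
  induction hn : l.length using Nat.strong_induction_on generalizing l with
  | _ n ih =>
    cases l with
    | nil => subst hn; simp [Pf]
    | cons c l =>
      rw [Pf]
      have key : ∀ j : Fin l.length, |(-1 : ℝ) ^ (j : ℕ) * K c l[j] * Pf K (l.eraseIdx j)| ≤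
          (l.length - 1).factorial * (w c * (l.map w).prod) := fun j => by
        have e : (l.eraseIdx j).length = l.length - 1 := by rw [List.length_eraseIdx, if_pos j.2]
        have a := ih _ (by rw [← hn, List.length_cons]; omega) (l.eraseIdx j)
          (fun x y c' => h x y ((c'.trans (List.eraseIdx_sublist l j)).cons c)) e
        have b := h c l[j] (List.cons_sublist_cons.2 (List.singleton_sublist.2
          (List.getElem_mem j.2)))
        rw [abs_mul, abs_mul, abs_pow, abs_neg, abs_one, one_pow, one_mul,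
          AL.map_split w l j j.2]
        refine (mul_le_mul b a (abs_nonneg _) (mul_nonneg (hw _) (hw _))).trans_eq ?_
        simp only [Fin.getElem_fin]
        ring
      refine (abs_sum_le_sum_abs _ _).trans ((sum_le_sum fun j _ => key j).trans ?_)
      rw [sum_const, card_univ, Fintype.card_fin, nsmul_eq_mul, ← mul_assoc, List.map_cons,
        List.prod_cons, ← hn, List.length_cons]
      refine mul_le_mul_of_nonneg_right ?_ (mul_nonneg (hw _) (nn _))
      have : l.length * (l.length - 1).factorial ≤ (l.length + 1).factorial := by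
        rw [Nat.factorial_succ]
        exact Nat.mul_le_mul (Nat.le_succ _) (Nat.factorial_le (Nat.sub_le _ _))
      exact_mod_cast this

theorem pf_lb {m : ℕ} {Z : Fin m × Bool → Fin m × Bool → ℝ} {C : ℝ} {d : Fin m → ℝ}
    (hC : 0 ≤ C) (h0 : ∀ k, 0 < d k) (hd : ∀ k, |Z (k, false) (k, true)| ≤ C / d k)
    (ho : ∀ x y, x.1 ≠ y.1 → Z x y ^ 2 ≤ C ^ 2 / (d x.1 * d y.1)) :
    |Pf Z (lb (List.finRange m))| ≤ (2 * m).factorial * ∏ k, C / d k := by
  have nn : ∀ k, 0 ≤ C / d k := fun k => div_nonneg hC (h0 k).le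
  have := pf_le (K := Z) (w := fun x => √(C / d x.1)) (fun _ => Real.sqrt_nonneg _)
    (lb (List.finRange m)) fun x y h => by
      rcases sub_lb (List.nodup_finRange m) h with h | ⟨h1, h2, h3⟩
      · rw [← Real.sqrt_mul (nn _), div_mul_div_comm, ← sq]
        exact Real.abs_le_sqrt (ho x y h)
      · obtain ⟨k, b⟩ := x
        obtain ⟨l, b'⟩ := y
        simp only at h1 h2 h3
        subst h1 h2 h3
        rw [Real.mul_self_sqrt (nn _)]
        exact hd _
  have e : (lb (List.finRange m)).length = 2 * m := by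
    rw [lb, AL.flat_length, List.length_finRange]
  rw [lb_prod, e] at this
  simpa only [Real.mul_self_sqrt (nn _), ← List.ofFn_eq_map, List.prod_ofFn] using this

/-- The kernel `G` of the set `Λ` comes from spinors. -/
def KS (Λ : Finset Site) (R : Multiset Site) (G : AL.Cn → AL.Cn → ℝ) : Prop :=
  ∀ y : AL.Cn, y.1 ∈ cnr y.2 → y.2 ∈ inn Λ → ∃ X U W, Spin (inn Λ) R y X U W ∧
    ∀ c : AL.Cn, c.1 ∈ cnr c.2 → c.2 ∈ inn Λ → G c y = AL.ep c y * val X c

theorem cnr_inn {Λ : Finset Site} {c : AL.Cn} (h : c.1 ∈ cnr c.2) (a : c.2 ∈ inn Λ) : c.1 ∈ Λ :=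
  a _ (by
    rw [mem_cnr] at h
    simp only [Prod.ext_iff] at h
    rw [mem_bx]
    omega)

theorem ks_free (Λ : Finset Site) : KS Λ 0 fun c y => AL.Wf Λ 0 [c, y] := fun _ a b =>
  let ⟨X, U, W, h1, h2⟩ := spin_free a (cnr_inn a b)
  ⟨X, U, W, h1, fun c c1 c2 => h2 c c1 (cnr_inn c1 c2)⟩

theorem ks_plus {P : Finset Site} {R : Multiset Site} (hR : ∀ f ∈ R, f ∉ P) :
    KS P R fun c y => P144S.Wf P R [c, y] := fun _ a b =>
  let ⟨X, U, W, h1, h2⟩ := spin_plus hR a (b _ (H170.self_mem_bx _ _))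
  ⟨X, U, W, h1, fun c c1 c2 => h2 c c1 (c2 _ (H170.self_mem_bx _ _))⟩

/-- The entries near the diagonal and far from it. -/
theorem ker : ∃ (C : ℝ) (τ : AL.Cn → AL.Cn → ℝ), 0 ≤ C ∧ ∀ Λ R G, KS Λ R G → ∀ (c y : AL.Cn)
    (p : Site) (d : ℕ), c.1 ∈ cnr c.2 → y.1 ∈ cnr y.2 → zd y.2 p ≤ 1 → 400 ≤ d →
    (∀ v, zd v p ≤ d → v ∈ Λ) → (zd c.2 p ≤ 1 → R = 0 ∨ c.1 = y.1 → |G c y - τ c y| ≤ C / d) ∧
      ∀ (p' : Site) (d' : ℕ), zd c.2 p' ≤ 1 → 400 ≤ d' → (∀ v, zd v p' ≤ d' → v ∈ Λ) →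
        d ≤ zd p' p → d' ≤ zd p' p → G c y ^ 2 ≤ C ^ 2 / (d' * d) := by
  obtain ⟨K, Q, κ, K0, hQ⟩ := exists_Q
  refine ⟨10 ^ 22 * √K, fun c y => val (Q (y.1 - y.2)) (c.1 - y.2, c.2 - y.2), by positivity,
    fun Λ R G h c y p d hc hy yp hd hp => ?_⟩
  have i1 : ∀ {q : Site} {e k : ℕ} {x z : Site}, (∀ v, zd v q ≤ e → v ∈ Λ) → zd z q ≤ 1 →
      k + 3 ≤ e → x ∈ bx z k → x ∈ inn Λ := fun a b c d v hv => a v (by
    rw [mem_bx] at d hv
    unfold zd at b ⊢
    omega)
  obtain ⟨X, U, W, hs, hG⟩ := h y hy (i1 (k := 0) hp yp (by omega) (H170.self_mem_bx _ _))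
  have y0 : y.1 - y.2 ∈ cnr 0 := by
    rw [mem_cnr] at hy ⊢
    simp only [Prod.ext_iff, Prod.fst_sub, Prod.snd_sub, Prod.fst_zero, Prod.snd_zero] at hy ⊢
    omega
  have hn : 4 ≤ d / 100 := by omega
  obtain ⟨m1, m2⟩ := hs.main hn (fun x hx => i1 hp yp (by omega) hx) (hQ _ y0).1 K0
    (fun x hx => (hQ _ y0).2 _ x (by omega) hx) hc
  have r : ∀ e : ℕ, 400 ≤ e → (0 : ℝ) < e ∧ (0 : ℝ) < (e / 100 : ℕ) ∧
      (e : ℝ) ≤ 200 * (e / 100 : ℕ) := fun e he =>
    ⟨by exact_mod_cast (by omega), by exact_mod_cast (by omega), by exact_mod_cast (by omega)⟩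
  obtain ⟨d0, n0, dn⟩ := r d hd
  have k2 : (10 ^ 22 * √K) ^ 2 = 10 ^ 44 * K := by rw [mul_pow, Real.sq_sqrt K0]; norm_num
  refine ⟨fun cp hR => ?_, fun p' d' cp hd' hp' z1 z2 => ?_⟩
  · have := m1 (by rw [mem_bx]; unfold zd at cp yp; omega)
    have e : ga R y y.1.1 * ga R y c.1.1 = 1 := by
      rcases hR with rfl | e
      · simp [ga, gg]
      · rw [e]; exact gg_sq _ _ _
    rw [← mul_assoc, e, one_mul,
      ← hG c hc (i1 (k := 0) hp cp (by omega) (H170.self_mem_bx _ _))] at this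
    refine abs_le_of_sq_le_sq (this.trans ?_) (by positivity)
    rw [div_pow, k2, div_le_div_iff₀ (by positivity) (by positivity)]
    have := mul_le_mul_of_nonneg_left (pow_le_pow_left₀ d0.le dn 2) K0
    nlinarith [mul_nonneg K0 (sq_nonneg ((d / 100 : ℕ) : ℝ))]
  · obtain ⟨d1, n1, dn'⟩ := r d' hd'
    have := m2 (d' / 100) (by omega) fun x hx => ⟨i1 hp' cp (by omega) hx, fun hx' => by
      rw [mem_bx] at hx hx'
      unfold zd at cp yp z1 z2
      omega⟩
    rw [hG c hc (i1 (k := 0) hp' cp (by omega) (H170.self_mem_bx _ _)), mul_pow, sq (AL.ep c y),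
      AL.ep_sq, one_mul]
    refine this.trans ?_
    rw [k2, div_le_div_iff₀ (by positivity) (by positivity)]
    have := mul_le_mul_of_nonneg_left (mul_le_mul dn' dn d0.le (by positivity)) K0
    nlinarith [mul_nonneg K0 (mul_pos n0 n1).le]

end Vale.Agent.P144DC
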