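import Vale.Agent.P144DC.En
import Vale.Agent.P144DC.Dlr
import Vale.Agent.P144DC.Defs

/-!
The bound on the mixed correlations in any finite set.
-/

namespace Vale.Agent.P144DC

open Finset Filter Topology Vale.Agent.P144 Vale.Agent.P144Z
open Vale.Agent.P144.H436 (boxAt spA kc_pos)
open Vale.Agent.P144Z.St (mag gibbs_V0)
open Vale.Agent.P144F (rt rt_pos rt_le rt_mul rt_inv zd_tri)

theorem en_eq (v : Site) (j : Fin 2) : en v j = fun σ => ∏ x ∈ {v, v + dir j}, sp (σ x) := by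
  funext σ
  rw [prod_pair (P144S.F.dir_ne v j).symm, en]

theorem abs_en (v : Site) (j : Fin 2) (σ : Config) : |en v j σ| = 1 := by
  rw [en, abs_mul, abs_sp, abs_sp, one_mul]

section

variable {J C : ℝ} {b : Option Config} {t : Site → Fin 2 → ℝ}

theorem EO.one (h : EO J b t C) {Λ : Finset Site} {v : Site} (j : Fin 2) {d : ℕ} (hd : 400 ≤ d)
    (hΛ : ∀ w, zd w v ≤ d → w ∈ Λ) : |gb J b Λ (en v j) - t v j| ≤ 2 * C / d := by
  have := h 1 0 Λ (fun _ => v) (fun _ => j) (fun _ => d) (fun _ => t v j) le_rfl (fun _ => hd)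
    (fun _ => hΛ) (fun k l a => absurd (Subsingleton.elim k l) a) (fun _ => by simp)
  have e := gibbs_aff (J := J) (lam := 0) (β := Kc / J) (V := fun _ => 0) b Λ 1 (-t v j) (en v j)
  simp only [one_mul, ← sub_eq_add_neg] at e
  simpa [e, mul_div_assoc] using this

theorem EO.eq (hJ : 0 < J) (h : EO J b t C) (v : Site) (j : Fin 2) :
    t v j = H436.cl (Kc / J) J {v, v + dir j} := by
  refine eq_of_forall_dist_le fun ε hε => ?_
  obtain ⟨M, hM⟩ := St.unif hJ {v, v + dir j} (half_pos hε)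
  obtain ⟨d, h1, h2⟩ := ((eventually_ge_atTop 400).and ((tendsto_const_div_atTop_nhds_zero_nat
    (2 * C)).eventually (ge_mem_nhds (half_pos hε)))).exists
  have a := h.one (Λ := P144.box M ∪ boxAt v d) j h1 fun w hw =>
    mem_union_right _ (MD.mem_boxAt_zd.2 hw)
  have c := hM (P144.box M ∪ boxAt v d) subset_union_left (fun _ => 0) b
  rw [en_eq] at a
  rw [Real.dist_eq]
  unfold spA at c
  rw [abs_le] at a c ⊢
  constructor <;> linarith [a.1, a.2, c.1, c.2]

theorem EO.add (h : EO J b t C) {C' : ℝ} (h0 : 0 ≤ C') : EO J b t (C + C') :=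
  fun m A Λ y j d u hA h1 h2 h3 h4 => by
    simpa only [add_assoc] using h m (C' + A) Λ y j d u (by linarith) h1 h2 h3 fun k =>
      (h4 k).trans (div_le_div_of_nonneg_right (by linarith) (Nat.cast_nonneg _))

theorem eo_all (hJ : 0 < J) :
    ∃ C t, 0 ≤ C ∧ ∀ b, (b = none ∨ b = some fun _ => true) → EO J b t C := by
  obtain ⟨C, t, h0, h⟩ := eo_free hJ
  obtain ⟨C', t', h0', h'⟩ := eo_plus hJ
  obtain rfl : t = t' := funext₂ fun v j => (h.eq hJ v j).trans (h'.eq hJ v j).symm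
  refine ⟨C + C', t, by linarith, ?_⟩
  rintro b (rfl | rfl)
  exacts [h.add h0', add_comm C' C ▸ h'.add h0]

theorem EO.sub (h : EO J b t C) (hC : 0 ≤ C) {m : ℕ} (G : Finset (Fin m)) {A : ℝ} {Λ : Finset Site}
    {y : Fin m → Site} (j : Fin m → Fin 2) {d : Fin m → ℕ} {u : Fin m → ℝ} (hA : 0 ≤ A)
    (h1 : ∀ k ∈ G, 400 ≤ d k) (h2 : ∀ k ∈ G, ∀ v, zd v (y k) ≤ d k → v ∈ Λ)
    (h3 : ∀ k l, k ≠ l → d k ≤ zd (y k) (y l)) (h4 : ∀ k ∈ G, |u k - t (y k) (j k)| ≤ A / d k) :
    |gb J b Λ fun σ => ∏ k ∈ G, (en (y k) (j k) σ - u k)| ≤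
      (2 * m).factorial * ∏ k ∈ G, (C + A) / d k := by
  set e := G.equivFin.symm
  have p : ∀ f : Fin m → ℝ, ∏ k ∈ G, f k = ∏ i, f (e i) := fun f => by
    rw [← prod_coe_sort, ← e.prod_comp]
  simp only [p]
  refine (h _ A Λ (fun i => y (e i)) (fun i => j (e i)) (fun i => d (e i)) (fun i => u (e i)) hA
    (fun i => h1 _ (e i).2) (fun i => h2 _ (e i).2) (fun k l a => h3 _ _ fun c =>
      a (e.injective (Subtype.ext c))) fun i => h4 _ (e i).2).trans
    (mul_le_mul_of_nonneg_right ?_ (prod_nonneg fun _ _ => by positivity))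
  have : G.card ≤ m := by simpa using card_le_univ G
  exact_mod_cast Nat.factorial_le (by omega)

end

/-- The conditional expectation of a centred energy is dominated by a nonnegative one. -/
theorem cond_en {J : ℝ} (hJ : 0 < J) {B : Finset Site} {v : Site} {j : Fin 2} (h1 : v ∈ B)
    (h2 : v + dir j ∈ B) {μ : ℝ} (hμ : μ ≤ gb J (some fun _ => true) B (en v j)) (σ : Config) :
    |gibbs J 0 Vk (Kc / J) (some σ) B fun τ => en v j τ - μ| ≤ gibbs J 0 Vk (Kc / J) (some σ) B
      fun τ => -(en v j τ - (2 * gb J (some fun _ => true) B (en v j) - μ)) := by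
  have a := H436.gibbs_le_plus (β := Kc / J) (div_pos kc_pos hJ).le hJ.le le_rfl (some σ)
    (Subset.refl B) (A := {v, v + dir j}) (insert_subset h1 (singleton_subset_iff.2 h2))
  rw [← en_eq, gibbs_V0 J _ Vk (some bcp)] at a
  have e1 := gibbs_aff (J := J) (lam := 0) (β := Kc / J) (V := Vk) (some σ) B 1 (-μ) (en v j)
  have e2 := gibbs_aff (J := J) (lam := 0) (β := Kc / J) (V := Vk) (some σ) B (-1)
    (2 * gb J (some fun _ => true) B (en v j) - μ) (en v j)
  simp only [one_mul, ← sub_eq_add_neg] at e1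
  simp only [neg_mul, one_mul, neg_add_eq_sub] at e2
  simp only [neg_sub]
  rw [e1, e2, abs_le]
  change _ ≤ gb J (some fun _ => true) B (en v j) at a
  constructor <;> linarith

section

variable {J : ℝ} (hJ : 0 < J) {n m : ℕ} (b : Option Config) {Λ : Finset Site} {x : Fin n → Site}
  {y : Fin m → Site} (j : Fin m → Fin 2) {s : Fin n ⊕ Fin m → ℕ}
  (h1 : ∀ p, 0 < s p → ∀ v, zd v (Sum.elim x y p) ≤ s p → v ∈ Λ)
  (h2 : ∀ p q, p ≠ q → s p ≤ zd (Sum.elim x y p) (Sum.elim x y q))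

/-- The boxes. -/
noncomputable def bo (x : Fin n → Site) (y : Fin m → Site) (s : Fin n ⊕ Fin m → ℕ)
    (p : Fin n ⊕ Fin m) : Finset Site := boxAt (Sum.elim x y p) (s p / 4)

theorem mem_bo {p : Fin n ⊕ Fin m} {v : Site} :
    v ∈ bo x y s p ↔ zd v (Sum.elim x y p) ≤ s p / 4 := MD.mem_boxAt_zd

include h1 in
theorem bo_in {p : Fin n ⊕ Fin m} (hp : 1600 ≤ s p) : ∀ u ∈ bo x y s p, ∀ v, zd u v ≤ 1 → v ∈ Λ :=
  fun u hu v hv => h1 p (by omega) v (by
    have := zd_tri v u (Sum.elim x y p)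
    rw [mem_bo] at hu
    rw [zd_symm] at hv
    omega)

include h2 in
theorem bo_far {p q : Fin n ⊕ Fin m} (hp : 1600 ≤ s p) (h : p ≠ q) :
    ∀ u ∈ bo x y s p, ∀ v, zd v (Sum.elim x y q) ≤ s q / 4 + 1 → 1 < zd u v := fun u hu v hv => by
  have a := h2 p q h
  have c := h2 q p h.symm
  have := zd_tri (Sum.elim x y p) u (Sum.elim x y q)
  have := zd_tri u v (Sum.elim x y q)
  rw [mem_bo, zd_symm] at hu
  rw [zd_symm] at c
  omega

theorem en_bo {k : Fin m} (hk : 1600 ≤ s (.inr k)) :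
    y k ∈ bo x y s (.inr k) ∧ y k + dir (j k) ∈ bo x y s (.inr k) :=
  ⟨mem_bo.2 ((zd_self _).trans_le (Nat.zero_le _)), mem_bo.2 ((zd_dir _ _).trans_le (by omega))⟩

include hJ h1 h2

/-- Only energies remain. -/
theorem cond_bd : |lcor (gb J b Λ) x y j| ≤
    (∏ i with 1600 ≤ s (.inl i), mag J (P144.box (s (.inl i) / 4)) 0) * 2 ^ (n + m) *
      |gb J b Λ fun σ => ∏ k with 1600 ≤ s (.inr k), (en (y k) (j k) σ -
        (2 * gb J (some fun _ => true) (bo x y s (.inr k)) (en (y k) (j k)) -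
          gb J b Λ (en (y k) (j k))))| := by
  set μ : Fin m → ℝ := fun k => gb J b Λ (en (y k) (j k)) with hμ
  set u : Fin m → ℝ := fun k =>
    2 * gb J (some fun _ => true) (bo x y s (.inr k)) (en (y k) (j k)) - μ k with hu
  set F : Fin n ⊕ Fin m → Config → ℝ :=
    Sum.elim (fun i σ => sp (σ (x i))) fun k σ => en (y k) (j k) σ - μ k with hF
  set G := univ.filter fun p => 1600 ≤ s p with hG
  set G₁ := univ.filter fun i => 1600 ≤ s (.inl i) with hG₁
  set G₂ := univ.filter fun k => 1600 ≤ s (.inr k) with hG₂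
  have eG : G = G₁.disjSum G₂ := by ext (i | k) <;> simp [hG, hG₁, hG₂]
  have g : ∀ p ∈ G, 1600 ≤ s p := fun p hp => (mem_filter.1 hp).2
  have g₂ : ∀ k ∈ G₂, 1600 ≤ s (.inr k) := fun p hp => (mem_filter.1 hp).2
  have de : ∀ k ∈ G₂, ∀ φ : ℝ → ℝ, Dep (bo x y s (.inr k)) fun σ => φ (en (y k) (j k) σ) :=
    fun k hk φ σ σ' a => by
      simp only [en, a _ (en_bo j (g₂ k hk)).1, a _ (en_bo j (g₂ k hk)).2]
  have f2 : ∀ p σ, |F p σ| ≤ 2 := by
    rintro (i | k) σ
    · exact (abs_sp _).le.trans one_le_two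
    · have a : |μ k| ≤ 1 := (P144F.isSt_gibbs ..).abs_le fun σ => (abs_en _ _ σ).le
      exact (abs_sub _ _).trans (by linarith [abs_en (y k) (j k) σ])
  have e0 : lcor (gb J b Λ) x y j =
      gibbs J 0 Vk (Kc / J) b Λ fun σ => (∏ p ∈ G, F p σ) * ∏ p ∈ Gᶜ, F p σ := by
    simp only [prod_mul_prod_compl, Fintype.prod_sum_type, gibbs_V0]
    rfl
  have d1 : ∀ p ∈ G, Dep (bo x y s p) (F p) := by
    rintro (i | k) hp
    · exact fun σ σ' a => congrArg sp (a _ (mem_bo.2 ((zd_self _).trans_le (Nat.zero_le _))))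
    · exact de k (by simpa [eG] using hp) fun r => r - μ k
  have d2 : ∀ p ∈ G, ∀ σ T, ∏ q ∈ Gᶜ, F q (P144.ext (bo x y s p) σ T) = ∏ q ∈ Gᶜ, F q σ := by
    refine fun p hp σ T => prod_congr rfl ?_
    have o : ∀ q ∈ Gᶜ, ∀ v, zd v (Sum.elim x y q) ≤ 1 → P144.ext (bo x y s p) σ T v = σ v :=
      fun q hq v hv => P144Y.G.ext_out _ _ fun c => by
        simpa [zd_self] using bo_far h2 (g p hp) (q := q) (fun e => mem_compl.1 hq (e ▸ hp)) v c v
          (hv.trans (by omega))
    rintro (i | k) hq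
    · exact congrArg sp (o _ hq _ ((zd_self _).trans_le zero_le_one))
    · simp only [hF, Sum.elim_inr, en, o _ hq _ ((zd_self (y k)).trans_le zero_le_one),
        o _ hq _ (zd_dir (y k) (j k)).le]
  rw [e0, dlr_prod J _ b G (fun p hp => bo_in h1 (g p hp)) d1
    (fun p hp q _ a v hv w hw => bo_far h2 (g p hp) a v hv w ((mem_bo.1 hw).trans (by omega))) _ d2]
  set c := (∏ i ∈ G₁, mag J (P144.box (s (.inl i) / 4)) 0) * 2 ^ (n + m) with hc
  have c0 : 0 ≤ c := mul_nonneg (prod_nonneg fun _ _ => St.mag_nonneg hJ _ _) (by positivity)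
  refine (gibbs_abs b Λ (G := fun σ => c * ((∏ k ∈ G₂, gibbs J 0 Vk (Kc / J) (some σ)
    (bo x y s (.inr k)) fun τ => -(en (y k) (j k) τ - u k)) * 1) + 0) fun σ => ?_).trans ?_
  · rw [add_zero, mul_one, hc, mul_right_comm, abs_mul, eG, prod_disjSum, abs_mul, abs_prod,
      abs_prod, ← eG]
    have k2 : ∀ k ∈ G₂, _ := fun k hk => cond_en hJ (en_bo (x := x) (y := y) j (g₂ k hk)).1
      (en_bo j (g₂ k hk)).2 (μ := μ k) (by
        have := H436.gibbs_le_plus (β := Kc / J) (div_pos kc_pos hJ).le hJ.le le_rfl b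
          (fun v hv => bo_in h1 (g₂ k hk) v hv v ((zd_self _).trans_le zero_le_one))
          (insert_subset (en_bo j (g₂ k hk)).1 (singleton_subset_iff.2 (en_bo j (g₂ k hk)).2))
        rw [← en_eq, gibbs_V0 J _ Vk b, gibbs_V0 J _ Vk] at this
        exact this) σ
    refine mul_le_mul (mul_le_mul (prod_le_prod (fun _ _ => abs_nonneg _) fun i _ => ?_)
      (prod_le_prod (fun _ _ => abs_nonneg _) k2) (prod_nonneg fun _ _ => abs_nonneg _)
      (prod_nonneg fun _ _ => St.mag_nonneg hJ _ _)) ?_ (abs_nonneg _)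
      (mul_nonneg (prod_nonneg fun _ _ => St.mag_nonneg hJ _ _)
        (prod_nonneg fun k hk => (abs_nonneg _).trans (k2 k hk)))
    · exact (P144Y.G.cm_abs hJ (mem_bo.2 ((zd_self _).trans_le (Nat.zero_le _))) σ).trans_eq
        (St.mag_boxAt _ _)
    · rw [abs_prod]
      refine (prod_le_prod (fun _ _ => abs_nonneg _) fun p _ => f2 p σ).trans
        ((prod_const _).trans_le (pow_le_pow_right₀ one_le_two ?_))
      simpa using card_le_univ Gᶜ
  · rw [gibbs_aff, add_zero, ← dlr_prod J _ b G₂ (B := fun k => bo x y s (.inr k))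
      (fun k hk => bo_in h1 (g₂ k hk)) (fun k hk => de k hk fun r => -(r - u k))
      (fun k hk l _ a v hv w hw => bo_far h2 (g₂ k hk) (fun e => a (Sum.inr_injective e)) v hv w
        ((mem_bo.1 hw).trans (by omega))) _ fun _ _ _ _ => rfl]
    refine mul_le_mul_of_nonneg_left ?_ c0
    have := gibbs_aff (J := J) (lam := 0) (β := Kc / J) (V := Vk) b Λ ((-1) ^ G₂.card) 0
      fun σ => ∏ k ∈ G₂, (en (y k) (j k) σ - u k)
    simp only [prod_neg, mul_one, add_zero] at this ⊢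
    rw [this, gibbs_V0]
    exact (le_abs_self _).trans_eq (by rw [abs_mul, abs_pow, abs_neg, abs_one, one_pow, one_mul])

end

/-- **The bound on the lattice.** -/
theorem lm {J : ℝ} (hJ : 0 < J) : LM J := by
  obtain ⟨C, t, hC, h⟩ := eo_all hJ
  obtain ⟨K, hK, hm⟩ := MD.mag_decay' hJ
  refine fun n m => ⟨(4 * K + 1600) ^ n * (2 ^ (n + m) * (2 * m).factorial * (56 * C + 1600) ^ m),
    fun b Λ x y j s hb h1 h2 => ?_⟩
  have g : ∀ k ∈ univ.filter fun k => 1600 ≤ s (.inr k), 1600 ≤ s (.inr k) := fun p hp =>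
    (mem_filter.1 hp).2
  have i1 : ∀ k ∈ univ.filter fun k => 1600 ≤ s (.inr k), ∀ v, zd v (y k) ≤ s (.inr k) / 4 →
      v ∈ Λ := fun k hk v hv => h1 (.inr k) (by linarith [g k hk]) v (hv.trans (by omega))
  have a := (h b hb).sub hC _ j (d := fun k => s (.inr k) / 4) (A := 6 * C) (by linarith)
    (u := fun k => 2 * gb J (some fun _ => true) (bo x y s (.inr k)) (en (y k) (j k)) -
      gb J b Λ (en (y k) (j k))) (fun k hk => by have := g k hk; omega) i1
    (fun k l e => (Nat.div_le_self _ _).trans (h2 (.inr k) (.inr l) fun c => e (Sum.inr_injective c)))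
    fun k hk => by
      have d4 : 400 ≤ s (.inr k) / 4 := by have := g k hk; omega
      have a1 := abs_le.1 ((h b hb).one (j k) d4 (i1 k hk))
      have a2 := abs_le.1 ((h _ (Or.inr rfl)).one (Λ := bo x y s (.inr k)) (j k) d4
        fun w hw => mem_bo.2 hw)
      rw [abs_le, show 6 * C = 3 * (2 * C) by ring, mul_div_assoc]
      simp only [Sum.elim_inr] at a2
      constructor <;> linarith [a1.1, a1.2, a2.1, a2.2]
  have c := (cond_bd hJ b j h1 h2).trans (mul_le_mul_of_nonneg_left a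
    (mul_nonneg (prod_nonneg fun _ _ => St.mag_nonneg hJ _ _) (by positivity)))
  have p1 : (∏ i with 1600 ≤ s (.inl i), mag J (P144.box (s (.inl i) / 4)) 0) *
      ∏ i, ((s (.inl i) : ℝ) + 1) ^ (1 / 8 : ℝ) ≤ (4 * K + 1600) ^ n := by
    rw [prod_filter, ← prod_mul_distrib, ← Fin.prod_const]
    refine prod_le_prod (fun i _ => mul_nonneg (ite_nonneg (St.mag_nonneg hJ _ _) zero_le_one)
      (by positivity)) fun i _ => ?_
    have r : ∀ z : ℝ, 1 ≤ z → rt z ≤ z := fun z hz => by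
      simpa only [rt, Real.rpow_one] using
        Real.rpow_le_rpow_of_exponent_le hz (show (1 / 8 : ℝ) ≤ 1 by norm_num)
    change _ * rt _ ≤ _
    split_ifs with c
    · have e : (s (.inl i) : ℝ) + 1 ≤ 4 * ((s (.inl i) / 4 : ℕ) + 1) := by
        exact_mod_cast (by omega)
      have e1 := rt_le (by positivity) e
      rw [rt_mul (by norm_num) (by positivity)] at e1
      have e2 := hm (s (.inl i) / 4)
      rw [rt_inv (by positivity)] at e2
      have e3 := rt_pos (s := (s (.inl i) / 4 : ℕ) + 1) (by positivity)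
      refine (mul_le_mul e2 e1 (rt_pos (by positivity)).le (by positivity)).trans ?_
      rw [mul_mul_mul_comm, inv_mul_cancel₀ e3.ne', mul_one]
      nlinarith [r 4 (by norm_num)]
    · have e : (s (.inl i) : ℝ) + 1 ≤ 1600 := by exact_mod_cast (by omega)
      linarith [r (s (.inl i) + 1) (le_add_of_nonneg_left (Nat.cast_nonneg _))]
  have p2 : (∏ k with 1600 ≤ s (.inr k), (C + 6 * C) / (s (.inr k) / 4 : ℕ)) *
      ∏ k, ((s (.inr k) : ℝ) + 1) ≤ (56 * C + 1600) ^ m := by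
    rw [prod_filter, ← prod_mul_distrib, ← Fin.prod_const]
    refine prod_le_prod (fun i _ => mul_nonneg (ite_nonneg (by positivity) zero_le_one)
      (by positivity)) fun k _ => ?_
    split_ifs with c
    · have e : (s (.inr k) : ℝ) + 1 ≤ 8 * (s (.inr k) / 4 : ℕ) := by exact_mod_cast (by omega)
      have e0 : (0 : ℝ) < (s (.inr k) / 4 : ℕ) := by exact_mod_cast (by omega)
      rw [div_mul_eq_mul_div, div_le_iff₀ e0]
      nlinarith [mul_le_mul_of_nonneg_left e hC]
    · have e : (s (.inr k) : ℝ) + 1 ≤ 1600 := by exact_mod_cast (by omega)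
      linarith
  refine (mul_le_mul_of_nonneg_right (mul_le_mul_of_nonneg_right c (by positivity))
    (by positivity)).trans (le_trans (le_of_eq (by ring)) (mul_le_mul p1
      (mul_le_mul_of_nonneg_left p2 (by positivity)) (by positivity) (by positivity)))

end Vale.Agent.P144DC
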