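import Vale.Agent.P144DC.Lat
import Vale.Agent.P144DM.Maj

/-!
The majorant for the nearest-neighbour model.
-/

namespace Vale.Agent.P144DC

theorem blkC : P144DD.BlkC := P144DM.blkC_of fun _ hJ => lm hJ

end Vale.Agent.P144DC
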