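import Vale.Agent.P144DC.Spin
import Vale.Agent.P144DC.Hole
import Vale.Agent.P144T.E.Cor

/-!
The spinors of the free model and of the dual of the plus model in any finite set.
-/

namespace Vale.Agent.P144DC

open Finset Vale.Agent.P144 Vale.Agent.P144P
open Vale.Agent.P144.H170 (Pt bx D mem_bx bx_mono lap_AL)
open Vale.Agent.P144.AL (tauR theA cnr mem_cnr)

/-- The inner faces. -/
def inn (Λ : Finset Site) : Set Pt := {x | ∀ z ∈ bx x 2, z ∈ Λ}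

theorem inn_mem {Λ : Finset Site} {i j : ℤ} (h : (i, j) ∈ inn Λ) (a b : ℤ)
    (H : i - 2 ≤ a ∧ a ≤ i + 2 ∧ j - 2 ≤ b ∧ b ≤ j + 2) :
    ((a, b) : Site) ∈ Λ := h _ (by rw [mem_bx]; simp only; lia)

theorem spin_of {Λ : Finset Site} {R : Multiset Site} {y : AL.Cn} {A B C E Hs Hf U : Site → ℝ}
    (hy : y.1 ∈ cnr y.2) (hH : P144T.IsH A B C E Hs Hf)
    (supp : ∃ M, (∀ x ∉ box M, U x = 0) ∧ ∀ x ∉ box M, Hf x = 0)
    (lapU : ∀ x : Site, theA {y.1} (x.1 - 1, x.2) = theA {y.1} (x.1 - 1, x.2 - 1) →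
      0 ≤ AL.lap U x)
    (lapI : ∀ i j, (i, j) ∈ inn Λ → tauR (y.2 ::ₘ R) (i, j) = tauR (y.2 ::ₘ R) (i, j - 1) →
      AL.lap Hf (i, j) ≤ 0)
    (lapW : ∀ x ≠ y.2, (∀ v ∈ cnr x, theA {y.1} (v.1 - 1, v.2) = theA {y.1} (v.1 - 1, v.2 - 1)) →
      AL.lap Hf x ≤ 20 * ∑ v ∈ cnr x, AL.lap U v)
    (rel : ∀ i j, (i, j) ∈ inn Λ →
      (C (i, j) = √2 * A (i, j + 1) - tauR (y.2 ::ₘ R) (i, j) * B (i, j + 1) ∧
        E (i, j) = √2 * B (i, j + 1) - tauR (y.2 ::ₘ R) (i, j) * A (i, j + 1)) ∧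
      B (i, j) = theA {y.1} (i, j) * (√2 * A (i + 1, j) - C (i + 1, j)) ∧
        E (i, j) = -(theA {y.1} (i, j) * (√2 * C (i + 1, j) - A (i + 1, j))))
    (hU : ∀ i j, ((i, j) : Site) ∈ Λ → ((i - 1, j - 1) : Site) ∈ Λ → U (i, j) = Hs (i, j))
    (sq : ∀ i j, ((i, j) : Site) ∈ Λ → (A (i, j + 1) ^ 2 + B (i, j + 1) ^ 2 ≤
      3 * (|Hf (i, j + 1) - Hf (i, j)| + |Hs (i + 1, j + 1) - Hs (i, j + 1)|) ∧
      C (i, j) ^ 2 + E (i, j) ^ 2 ≤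
        3 * (|Hf (i, j + 1) - Hf (i, j)| + |Hs (i + 1, j + 1) - Hs (i, j + 1)|)))
    (out : ∀ f ∈ R, f ∉ Λ) (src : val ⟨A, B, C, E⟩ y = 1) :
    Spin (inn Λ) R y ⟨A, B, C, E⟩ U Hf := by
  have th : ∀ x : Site, x ≠ y.1 → theA {y.1} (x.1 - 1, x.2) = theA {y.1} (x.1 - 1, x.2 - 1) :=
    fun x hx => AL.theA_step (by simpa using hx)
  have o : ∀ f ∈ R, f ∉ inn Λ := fun f hf c => out f hf (c f (H170.self_mem_bx _ _))
  refine ⟨hy, supp, fun x hx => ?_, fun x a hx => ?_, fun x a hx => ?_, ?_, ?_, o, src⟩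
  · rw [← lap_AL]
    exact lapU x (th x hx)
  · rw [← lap_AL]
    exact lapI x.1 x.2 a (AL.tauR_step fun c => (Multiset.mem_cons.1 c).elim hx fun d => o _ d a)
  · simp only [← lap_AL]
    exact lapW x a fun v hv => th v fun e => hx (e ▸ hv)
  · rintro ⟨i, j⟩ a
    obtain ⟨⟨a1, a2⟩, a3, a4⟩ := rel i j a
    have e : theA {y.1} (i, j) = chi (AL.sw i j) y.1 * 1 := by
      rw [show ({y.1} : Multiset Site) = y.1 ::ₘ 0 from rfl, AL.theA_cons, theA, AL.chiM_zero]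
    rw [AL.tauR_cons] at a1 a2
    rw [e] at a3 a4
    unfold H170.Rel
    simp only [Prod.mk_add_mk, add_zero]
    exact ⟨a1, a2, a3, a4⟩
  · rintro ⟨i, j⟩ a
    have u1 := hU i j (inn_mem a _ _ (by omega)) (inn_mem a _ _ (by omega))
    have u2 := hU (i + 1) j (inn_mem a _ _ (by omega)) (inn_mem a _ _ (by omega))
    have u3 := hU i (j + 1) (inn_mem a _ _ (by omega)) (inn_mem a _ _ (by omega))
    have u4 := hU (i + 1) (j + 1) (inn_mem a _ _ (by omega)) (inn_mem a _ _ (by omega))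
    have s1 := (sq i (j - 1) (inn_mem a _ _ (by omega))).1
    have s2 := (sq i j (inn_mem a _ _ (by omega))).2
    rw [sub_add_cancel] at s1
    simp only [gr, D, Fld.sq, Prod.mk_add_mk, Prod.mk_sub_mk, add_zero, sub_zero, sub_add_cancel,
      u1, u2, u3, u4]
    exact ⟨hH.a i j, hH.b i j, hH.c i j, by linarith⟩

/-- The spinor of the free model. -/
theorem spin_free {Λ : Finset Site} {y : AL.Cn} (hy : y.1 ∈ cnr y.2) (hΛ : y.1 ∈ Λ) :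
    ∃ X U W, Spin (inn Λ) 0 y X U W ∧
      ∀ c : AL.Cn, c.1 ∈ cnr c.2 → c.1 ∈ Λ → AL.Wf Λ 0 [c, y] = AL.ep c y * val X c := by
  have h := AL.spr_QQ (Λ := Λ) (y.2 ::ₘ 0) (A := {y.1}) (by simpa using hΛ) (AL.QQ Λ 0 0)
  obtain ⟨Hs, Hf, hH⟩ := P144T.exists_H h
  have hB := P144T.HB.of_spr h hH
  have hv : ∀ c : AL.Cn, c.1 ∈ cnr c.2 → c.1 ∈ Λ → val ⟨_, _, _, _⟩ c =
      AL.QQ Λ (c.2 ::ₘ y.2 ::ₘ 0) (c.1 ::ₘ {y.1}) / AL.QQ Λ 0 0 := fun c hc =>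
    cn_cases (p := fun c => c.1 ∈ Λ → val ⟨AL.xA Λ (y.2 ::ₘ 0) {y.1} (AL.QQ Λ 0 0),
      AL.xB Λ (y.2 ::ₘ 0) {y.1} (AL.QQ Λ 0 0), AL.xC Λ (y.2 ::ₘ 0) {y.1} (AL.QQ Λ 0 0),
      AL.xD Λ (y.2 ::ₘ 0) {y.1} (AL.QQ Λ 0 0)⟩ c =
      AL.QQ Λ (c.2 ::ₘ y.2 ::ₘ 0) (c.1 ::ₘ {y.1}) / AL.QQ Λ 0 0) hc
      (fun x a => by rw [val_A]; exact if_pos a) (fun x a => by rw [val_B]; exact if_pos a)
      (fun x a => by rw [val_C]; exact if_pos a) fun x a => by rw [val_E]; exact if_pos a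
  have w : ∀ v : Site, theA {y.1} (v.1 - 1, v.2) = theA {y.1} (v.1 - 1, v.2 - 1) →
      0 ≤ P144T.hat Λ Hs v - Hs v ∧ P144T.hat Λ Hs v - Hs v ≤ AL.lap (P144T.hat Λ Hs) v :=
    fun v a => ⟨sub_nonneg.2 (hB.le_hat v), P144T.lap_hat h hH a⟩
  refine ⟨_, P144T.hat Λ Hs, Hf, spin_of hy hH ?_ (fun x a => (w x a).1.trans (w x a).2)
    (fun i j a b => P144T.lapf_nonpos h hH (inn_mem a _ _ (by omega)) (inn_mem a _ _ (by omega)) (inn_mem a _ _ (by omega))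
      (inn_mem a _ _ (by omega)) b) (fun x a b => ?_) (fun i j a =>
      ⟨h.V i j (mem_hor.2 ⟨inn_mem a _ _ (by omega), inn_mem a _ _ (by omega)⟩),
        h.H i j (mem_ver.2 ⟨inn_mem a _ _ (by omega), inn_mem a _ _ (by omega)⟩)⟩)
    (fun i j a _ => P144T.hat_in a) (fun i j _ => P144T.sqV h hH i j) (by simp) ?_,
    fun c a b => ?_⟩
  · obtain ⟨M, -, -, a, b⟩ := hB.supp ∅
    exact ⟨M, b, a⟩
  · have s1 := sum_le_sum fun v hv => (w v (b v hv)).2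
    have s0 := sum_nonneg fun v hv => (w v (b v hv)).1
    by_cases c : ∀ u ∈ cnr x, u ∈ Λ
    · have := P144T.lapf_nonpos h hH (i := x.1) (j := x.2) (c _ (by simp [mem_cnr]))
        (c _ (by simp [mem_cnr])) (c _ (by simp [mem_cnr])) (c _ (by simp [mem_cnr]))
        (AL.tauR_step (by simpa using a))
      linarith
    · push Not at c
      obtain ⟨u, u1, u2⟩ := c
      linarith [hB.lapf_out u1 u2]
  · rw [hv y hy hΛ, AL.QQ_dis_pair, show ({y.1} : Multiset Site) = y.1 ::ₘ 0 from rfl,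
      AL.QQ_spin_pair, div_self (AL.QQ_pos Λ 0).ne']
  · rw [hv c a b]
    unfold AL.Wf
    simp only [AL.el, List.map_nil, List.prod_nil, List.map_cons, List.prod_cons, mul_one,
      mul_div_assoc]
    rfl

open P144S (Vx QQ Wf xA xB xC xD) in
/-- The spinor of the dual of the plus model, with disorders in the holes. -/
theorem spin_plus {P : Finset Site} {R : Multiset Site} (hR : ∀ f ∈ R, f ∉ P) {y : AL.Cn}
    (hy : y.1 ∈ cnr y.2) (hP : y.2 ∈ P) : ∃ X U W, Spin (inn P) R y X U W ∧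
      ∀ c : AL.Cn, c.1 ∈ cnr c.2 → c.2 ∈ P → Wf P R [c, y] = AL.ep c y * val X c := by
  have vx : ∀ c : AL.Cn, c.1 ∈ cnr c.2 → c.2 ∈ P → c.1 ∈ Vx P := fun c a b =>
    mem_biUnion.2 ⟨_, b, a⟩
  have h := P144S.W.spr P (y.2 ::ₘ R) {y.1} (QQ P R 0) (by simpa using vx y hy hP)
  obtain ⟨Hs, Hf, hH⟩ := P144Y.H.exists_H h
  have hv : ∀ c : AL.Cn, c.1 ∈ cnr c.2 → c.1 ∈ Vx P → val ⟨_, _, _, _⟩ c =
      QQ P (c.2 ::ₘ y.2 ::ₘ R) (c.1 ::ₘ {y.1}) / QQ P R 0 := fun c hc =>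
    cn_cases (p := fun c => c.1 ∈ Vx P → val ⟨xA P (y.2 ::ₘ R) {y.1} (QQ P R 0),
      xB P (y.2 ::ₘ R) {y.1} (QQ P R 0), xC P (y.2 ::ₘ R) {y.1} (QQ P R 0),
      xD P (y.2 ::ₘ R) {y.1} (QQ P R 0)⟩ c =
      QQ P (c.2 ::ₘ y.2 ::ₘ R) (c.1 ::ₘ {y.1}) / QQ P R 0) hc
      (fun x a => by rw [val_A]; exact if_pos a) (fun x a => by rw [val_B]; exact if_pos a)
      (fun x a => by rw [val_C]; exact if_pos a) fun x a => by rw [val_E]; exact if_pos a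
  have w : ∀ v : Site, theA {y.1} (v.1 - 1, v.2) = theA {y.1} (v.1 - 1, v.2 - 1) →
      0 ≤ AL.lap (P144Y.hat P Hs Hf) v := fun v a =>
    (sub_nonneg.2 (P144Y.H.le_hat hH P v)).trans (P144Y.H.lap_hat h hH a)
  refine ⟨_, P144Y.hat P Hs Hf, Hf, spin_of hy hH ?_ w
    (fun i j a b => P144Y.H.lapf_nonpos h hH (inn_mem a _ _ (by omega)) b) (fun x a b => ?_) (fun i j a =>
      ⟨h.V i j (Or.inl (inn_mem a _ _ (by omega))), h.H i j (Or.inl (inn_mem a _ _ (by omega)))⟩)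
    (fun i j a b => P144Y.H.hat_in Hs Hf a b) (fun i j a => P144Y.H.sqV h hH i j (Or.inl a)) hR ?_,
    fun c a b => ?_⟩
  · obtain ⟨M, -, -, a, b⟩ := P144Y.H.supp h hH ∅
    exact ⟨M, b, a⟩
  · by_cases c : x ∈ P
    · have := P144Y.H.lapf_nonpos h hH (i := x.1) (j := x.2) c
        (AL.tauR_step fun d => (Multiset.mem_cons.1 d).elim a fun e => hR _ e c)
      linarith [sum_nonneg fun v hv => w v (b v hv)]
    · exact lapf_any h hH c b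
  · rw [hv y hy (vx y hy hP), P144S.W.QQ_dis_pair,
      show ({y.1} : Multiset Site) = y.1 ::ₘ 0 from rfl, P144S.W.QQ_spin_pair,
      div_self (P144S.W.QQ_pos P R).ne']
  · rw [hv c a (vx c a b), P144S.W.Wf_two]

end Vale.Agent.P144DC
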