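import Vale.Agent.P144P.Inn
import Vale.Agent.P144P.Prod

/-!
The product rule for the cut-off and a function with small increments.
-/

namespace Vale.Agent.P144DC

open Finset Vale.Agent.P144 Vale.Agent.P144P
open Vale.Agent.P144.H170 (Pt bx D lap mem_bx bx_mono)
open Vale.Agent.P144.H135 (CT CT_one CT_zero CT_nonneg CT_le_one CT_lip CT_move sum_CT_lap card_bx
  bx_step)

/-- A function that is small with small increments on the annulus of scale `m`. -/
def Sm (g : Pt → ℝ) (m : ℕ) (K β : ℝ) : Prop :=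
  ∀ x ∈ bx 0 (5 * m), x ∉ bx 0 m → |g x| ≤ K ∧ |D (1, 0) g x| ≤ β ∧ |D (0, 1) g x| ≤ β

variable {g : Pt → ℝ} {m : ℕ} {K β : ℝ}

theorem Sm.d (h : Sm g m K β) {e : Pt} (he : e = (1, 0) ∨ e = (0, 1)) {x : Pt}
    (h1 : x ∈ bx 0 (5 * m)) (h2 : x ∉ bx 0 m) : |D e g x| ≤ β := by
  rcases he with rfl | rfl
  exacts [(h x h1 h2).2.1, (h x h1 h2).2.2]

theorem Sm.cross (h : Sm g m K β) (hm : 0 < m) (hβ : 0 ≤ β) {e : Pt}
    (he : e = (1, 0) ∨ e = (0, 1)) (T : Finset Pt) :
    ∑ x ∈ T, |D e (CT 0 (2 * m)) x| * |D e g x| ≤ 41 * m * β := by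
  classical
  have hm' : (1 : ℝ) ≤ m := by exact_mod_cast hm
  have c0 : 0 ≤ 1 / ((2 * m : ℕ) : ℝ) * β := by positivity
  calc _ ≤ ∑ x ∈ T, if x ∈ bx 0 (4 * m) then 1 / ((2 * m : ℕ) : ℝ) * β else 0 := by
        refine sum_le_sum fun x _ => ?_
        by_cases hx : CT 0 (2 * m) (x + e) = CT 0 (2 * m) x
        · have : D e (CT 0 (2 * m)) x = 0 := sub_eq_zero.2 hx
          rw [this, abs_zero, zero_mul]
          split_ifs
          exacts [c0, le_rfl]
        · obtain ⟨⟨a1, a2⟩, -⟩ := CT_move (c := 0) (n := 2 * m) (by lia) he hx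
          rw [if_pos (bx_mono (by lia) a1)]
          exact mul_le_mul (CT_lip (by lia) he x) (h.d he (bx_mono (by lia) a1)
            fun h' => a2 (bx_mono (by lia) h')) (abs_nonneg _) (by positivity)
    _ ≤ ∑ x ∈ bx (0 : Pt) (4 * m), 1 / ((2 * m : ℕ) : ℝ) * β := by
        rw [← sum_filter]
        exact sum_le_sum_of_subset_of_nonneg (fun x hx => (mem_filter.1 hx).2) fun _ _ _ => c0
    _ ≤ _ := by
        rw [sum_const, nsmul_eq_mul, card_bx, ← mul_assoc]
        refine mul_le_mul_of_nonneg_right ?_ hβ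
        push_cast
        rw [mul_one_div, div_le_iff₀ (by positivity)]
        nlinarith

theorem Sm.prod (h : Sm g m K β) (hm : 0 < m) (hK : 0 ≤ K) (hβ : 0 ≤ β) (T : Finset Pt) :
    ∑ x ∈ T, |lap (fun y => CT 0 (2 * m) y * g y) x - CT 0 (2 * m) x * lap g x| ≤
      80 * K + 164 * m * β := by
  have c1 := h.cross hm hβ (e := (1, 0)) (Or.inl rfl)
  have c2 := h.cross hm hβ (e := (0, 1)) (Or.inr rfl)
  have dec : ∀ x, |lap (fun y => CT 0 (2 * m) y * g y) x - CT 0 (2 * m) x * lap g x| ≤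
      (|D (1, 0) (CT 0 (2 * m)) x| * |D (1, 0) g x| +
        |D (1, 0) (CT 0 (2 * m)) (x - (1, 0))| * |D (1, 0) g (x - (1, 0))| +
        |D (0, 1) (CT 0 (2 * m)) x| * |D (0, 1) g x| +
        |D (0, 1) (CT 0 (2 * m)) (x - (0, 1))| * |D (0, 1) g (x - (0, 1))|) +
      K * |lap (CT 0 (2 * m)) x| := by
    intro x
    have e1 : lap (fun y => CT 0 (2 * m) y * g y) x - CT 0 (2 * m) x * lap g x =
        (D (1, 0) (CT 0 (2 * m)) x * D (1, 0) g x +
        D (1, 0) (CT 0 (2 * m)) (x - (1, 0)) * D (1, 0) g (x - (1, 0)) +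
        D (0, 1) (CT 0 (2 * m)) x * D (0, 1) g x +
        D (0, 1) (CT 0 (2 * m)) (x - (0, 1)) * D (0, 1) g (x - (0, 1))) +
        g x * lap (CT 0 (2 * m)) x := by
      unfold lap D
      simp only [sub_add_cancel]
      ring
    have hl : |g x * lap (CT 0 (2 * m)) x| ≤ K * |lap (CT 0 (2 * m)) x| := by
      rw [abs_mul]
      by_cases hz : x ∉ bx 0 (4 * m) ∨ x ∈ bx 0 (2 * m - 1)
      · obtain ⟨h1, h2, h3, h4⟩ := CT_flat (c := 0) hm hz
        have : lap (CT 0 (2 * m)) x = 0 := by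
          unfold lap
          rw [h1, h2, h3, h4]
          ring
        rw [this]
        simp
      · rw [not_or, not_not] at hz
        exact mul_le_mul_of_nonneg_right (h x (bx_mono (by lia) hz.1)
          fun h' => hz.2 (bx_mono (by lia) h')).1 (abs_nonneg _)
    rw [e1]
    refine (abs_add_le _ _).trans (add_le_add ?_ hl)
    rw [← abs_mul, ← abs_mul, ← abs_mul, ← abs_mul]
    exact (abs_add_le _ _).trans (add_le_add ((abs_add_le _ _).trans
      (add_le_add (abs_add_le _ _) le_rfl)) le_rfl)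
  have sh : ∀ e : Pt, ∀ F : Pt → ℝ, (∀ T : Finset Pt, ∑ x ∈ T, F x ≤ 41 * m * β) →
      ∑ x ∈ T, F (x - e) ≤ 41 * m * β := by
    intro e F hF
    have := hF (T.image fun x => x - e)
    rwa [sum_image fun x _ y _ h => sub_left_injective h] at this
  have s1 := sh (1, 0) _ c1
  have s2 := sh (0, 1) _ c2
  have s3 := mul_le_mul_of_nonneg_left (sum_CT_lap (c := 0) (n := 2 * m) (by lia) T) hK
  refine (sum_le_sum fun x _ => dec x).trans ?_
  rw [sum_add_distrib, sum_add_distrib, sum_add_distrib, sum_add_distrib, ← mul_sum]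
  linarith [c1 T, c2 T]

theorem Sm.inc (h : Sm g m K β) (hm : 0 < m) (hK : 0 ≤ K) (hβ : 0 ≤ β) {e : Pt}
    (he : e = (1, 0) ∨ e = (0, 1)) {x : Pt} (hx : x ∈ bx 0 (5 * m)) :
    |D e (fun y => (1 - CT 0 (2 * m) y) * g y) x| ≤ β + K / (2 * m) := by
  by_cases h2 : x ∈ bx 0 m
  · have a1 : CT 0 (2 * m) x = 1 := CT_one (by lia) (bx_mono (by lia) h2)
    have a2 : CT 0 (2 * m) (x + e) = 1 := CT_one (by lia) (bx_mono (by lia) (bx_step h2 he).1)
    simp only [D, a1, a2, sub_self, zero_mul, abs_zero]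
    positivity
  have e1 : D e (fun y => (1 - CT 0 (2 * m) y) * g y) x = (1 - CT 0 (2 * m) (x + e)) * D e g x -
      (CT 0 (2 * m) (x + e) - CT 0 (2 * m) x) * g x := by
    unfold D
    ring
  rw [e1]
  refine (abs_sub _ _).trans (add_le_add ?_ ?_)
  · rw [abs_mul, abs_of_nonneg (sub_nonneg.2 (CT_le_one _ _ _))]
    exact (mul_le_of_le_one_left (abs_nonneg _) (by linarith [CT_nonneg 0 (2 * m) (x + e)])).trans
      (h.d he hx h2)
  · rw [abs_mul]
    refine (mul_le_mul (CT_lip (by lia) he x) (h x hx h2).1 (abs_nonneg _) (by positivity)).trans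
      (le_of_eq ?_)
    push_cast
    ring

end Vale.Agent.P144DC
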