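import Vale.Agent.P144DC.Core
import Vale.Agent.P144.H135.Diff

/-!
Bounds on a spinor with a source that hold for every shape of the region.
-/

namespace Vale.Agent.P144DC

open Finset Filter Topology Vale.Agent.P144 Vale.Agent.P144P
open Vale.Agent.P144.H170 (Pt pt bx D lap mem_bx bx_mono Rel CR4)
open Vale.Agent.P144.H135 (Asy PKr eA eB eC eE sn sn_ne et_eq Src diff_clean exists_ker)

theorem asy_bd {Q : Pt → ℝ} {φ : ℂ →L[ℝ] ℝ} {κ : ℂ} (h : Asy Q φ κ) :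
    ∃ K, ∀ (n : ℕ) (x : Pt), 0 < n → x ∉ bx 0 n → Q x ^ 2 ≤ K / (n : ℝ) ^ 2 := by
  obtain ⟨K, hK⟩ := (Metric.isBounded_range_of_tendsto_cofinite h).exists_norm_le
  refine ⟨(K + ‖φ‖ * ‖κ‖) ^ 2, fun n x hn hx => ?_⟩
  have hn' : (0 : ℝ) < n := by exact_mod_cast hn
  have h1 : (n : ℝ) ≤ ‖pt 1 x‖ := by
    have a1 : |(x.1 : ℝ)| ≤ ‖pt 1 x‖ := by
      simpa only [pt, one_mul] using Complex.abs_re_le_norm (pt 1 x)
    have a2 : |(x.2 : ℝ)| ≤ ‖pt 1 x‖ := by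
      simpa only [pt, one_mul] using Complex.abs_im_le_norm (pt 1 x)
    rw [bx0, not_and_or, not_le, not_le] at hx
    rcases hx with hx | hx
    · exact le_trans (show (n : ℝ) ≤ |(x.1 : ℝ)| by exact_mod_cast hx.le) a1
    · exact le_trans (show (n : ℝ) ≤ |(x.2 : ℝ)| by exact_mod_cast hx.le) a2
  have h2 := hK _ ⟨x, rfl⟩
  have h3 : ‖pt 1 x‖ * |φ (κ / pt 1 x)| ≤ ‖φ‖ * ‖κ‖ := by
    refine (mul_le_mul_of_nonneg_left (φ.le_opNorm _) (norm_nonneg _)).trans_eq ?_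
    rw [norm_div]
    have : ‖pt 1 x‖ ≠ 0 := (hn'.trans_le h1).ne'
    field_simp
  rw [Real.norm_eq_abs, abs_mul, abs_norm] at h2
  have h4 : ‖pt 1 x‖ * |Q x| ≤ K + ‖φ‖ * ‖κ‖ := by
    have := abs_add_le (Q x - φ (κ / pt 1 x)) (φ (κ / pt 1 x))
    rw [sub_add_cancel] at this
    nlinarith [norm_nonneg (pt 1 x)]
  rw [le_div_iff₀ (by positivity), ← mul_pow, ← sq_abs, abs_mul, abs_of_pos hn']
  exact pow_le_pow_left₀ (by positivity) (le_trans (by nlinarith [abs_nonneg (Q x)]) h4) 2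

/-- The kernels of the plane and their decay. -/
theorem exists_Q : ∃ (K : ℝ) (Q : Site → Fld) (κ : Site → ℂ), 0 ≤ K ∧ ∀ v ∈ AL.cnr 0,
    PKr v (Q v).A (Q v).B (Q v).C (Q v).E (κ v) ∧
      ∀ (n : ℕ) (x : Pt), 0 < n → x ∉ bx 0 n → (Q v).sq x ≤ K / (n : ℝ) ^ 2 := by
  have : ∀ v ∈ AL.cnr 0, ∃ (K : ℝ) (Q : Fld) (κ : ℂ), PKr v Q.A Q.B Q.C Q.E κ ∧
      ∀ (n : ℕ) (x : Pt), 0 < n → x ∉ bx 0 n → Q.sq x ≤ K / (n : ℝ) ^ 2 := fun v hv => by
    obtain ⟨A, B, C, E, κ, h⟩ := exists_ker v hv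
    obtain ⟨a, ha⟩ := asy_bd h.aA
    obtain ⟨b, hb⟩ := asy_bd h.aB
    obtain ⟨c, hc⟩ := asy_bd h.aC
    obtain ⟨e, he⟩ := asy_bd h.aE
    refine ⟨a + b + c + e, ⟨A, B, C, E⟩, κ, h, fun n x hn hx => ?_⟩
    simp only [Fld.sq, add_div]
    linarith [ha n x hn hx, hb n x hn hx, hc n x hn hx, he n x hn hx]
  revert this
  have : Inhabited Fld := ⟨⟨0, 0, 0, 0⟩⟩
  intro this
  choose! K Q κ h using this
  refine ⟨∑ v ∈ AL.cnr 0, |K v|, Q, κ, sum_nonneg fun _ _ => abs_nonneg _, fun v hv =>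
    ⟨(h v hv).1, fun n x hn hx => ((h v hv).2 n x hn hx).trans
      (div_le_div_of_nonneg_right ((le_abs_self _).trans ?_) (by positivity))⟩⟩
  exact single_le_sum (f := fun v => |K v|) (fun _ _ => abs_nonneg _) hv

/-- The value of a field at a corner. -/
noncomputable def val (F : Fld) (c : AL.Cn) : ℝ :=
  if c.1 = c.2 then F.A c.2 else if c.1 = (c.2.1 + 1, c.2.2) then F.B c.2 else
    if c.1 = (c.2.1, c.2.2 + 1) then F.C c.2 else F.E c.2

theorem val_A (F : Fld) (x : Pt) : val F (x, x) = F.A x := if_pos rfl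

theorem val_B (F : Fld) (x : Pt) : val F ((x.1 + 1, x.2), x) = F.B x := by
  simp [val, Prod.ext_iff]

theorem val_C (F : Fld) (x : Pt) : val F ((x.1, x.2 + 1), x) = F.C x := by
  simp [val, Prod.ext_iff]

theorem val_E (F : Fld) (x : Pt) : val F ((x.1 + 1, x.2 + 1), x) = F.E x := by
  simp [val, Prod.ext_iff]

theorem cn_cases {p : AL.Cn → Prop} {c : AL.Cn} (hc : c.1 ∈ AL.cnr c.2) (a : ∀ x, p (x, x))
    (b : ∀ x : Pt, p ((x.1 + 1, x.2), x)) (d : ∀ x : Pt, p ((x.1, x.2 + 1), x))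
    (e : ∀ x : Pt, p ((x.1 + 1, x.2 + 1), x)) : p c := by
  obtain ⟨v, f⟩ := c
  rcases AL.mem_cnr.1 hc with h | h | h | h <;> simp only at h <;> subst h
  exacts [a _, b _, d _, e _]

theorem val_sq (F : Fld) (c : AL.Cn) : val F c ^ 2 ≤ F.sq c.2 := by
  unfold val Fld.sq
  split_ifs <;> nlinarith [sq_nonneg (F.A c.2), sq_nonneg (F.B c.2), sq_nonneg (F.C c.2),
    sq_nonneg (F.E c.2)]

/-- A spinor with the source `y` and the disorders `R`; `I` is the set of inner faces. -/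
structure Spin (I : Set Pt) (R : Multiset Site) (y : AL.Cn) (X : Fld) (U W : Pt → ℝ) : Prop where
  cnr : y.1 ∈ AL.cnr y.2
  supp : ∃ M, (∀ x ∉ box M, U x = 0) ∧ ∀ x ∉ box M, W x = 0
  lapU : ∀ x ≠ y.1, 0 ≤ lap U x
  lapI : ∀ x ∈ I, x ≠ y.2 → lap W x ≤ 0
  lapW : ∀ x ≠ y.2, y.1 ∉ AL.cnr x → lap W x ≤ 20 * ∑ v ∈ AL.cnr x, lap U v
  rel : ∀ x ∈ I, Rel (fun x => AL.cut1 y.2 (x.1, x.2 + 1) * AL.tauR R x)
    (fun x => chi (AL.sw x.1 x.2) y.1 * 1) X.A X.B X.C X.E x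
  hh : ∀ x ∈ I, U x - W x = X.A x ^ 2 ∧ U (x + (1, 0)) - W x = X.B x ^ 2 ∧
    U (x + (0, 1)) - W x = X.C x ^ 2 ∧ X.sq x ≤ gr U W x
  out : ∀ f ∈ R, f ∉ I
  src : val X y = 1

/-- The field with the sign of the side of the broken line through the source. -/
noncomputable def eF (y : AL.Cn) (X : Fld) : Fld := ⟨eA y X.A, eB y X.B, eC y X.C, eE y X.E⟩

theorem eF_sq (y : AL.Cn) (X : Fld) (x : Pt) : (eF y X).sq x = X.sq x := by
  have k : ∀ c, AL.ep c y ^ 2 = 1 := fun c => by rw [sq, AL.ep_sq]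
  simp only [Fld.sq, eF, eA, eB, eC, eE, mul_pow, k, one_mul]

theorem rel_ep {y : AL.Cn} (hy : y.1 ∈ AL.cnr y.2) {X : Fld} {R : Multiset Site} {x : Pt}
    (h : Rel (fun x => AL.cut1 y.2 (x.1, x.2 + 1) * AL.tauR R x)
      (fun x => chi (AL.sw x.1 x.2) y.1 * 1) X.A X.B X.C X.E x) (h1 : y.2 ≠ x)
    (h2 : y.2 ≠ x + (0, 1)) : (eF y X).Rl R x := by
  obtain ⟨i, j⟩ := x
  have p4 : ((i, j) : Pt) + (0, 1) = (i, j + 1) := by simp
  have p5 : ((i, j) : Pt) + (1, 0) = (i + 1, j) := by simp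
  rw [p4] at h2
  obtain ⟨v1, v2, v3⟩ := AL.ep_V i j hy
  obtain ⟨w1, w2, w3⟩ := AL.ep_H i j hy
  have n1 : ∀ v : Site, sn y (v, (i, j)) = 1 := fun v => sn_ne fun h => h1 (by rw [← h])
  have n2 : ∀ v : Site, sn y (v, (i, j + 1)) = 1 := fun v => sn_ne fun h => h2 (by rw [← h])
  rw [et_eq, et_eq, n1, n2, mul_one, mul_one] at v1 v2
  rw [et_eq, et_eq, n2, n2, mul_one, mul_one] at v3
  have cc := AL.cut1_sq y.2 (i, j + 1)
  have v4 : AL.cut1 y.2 (i, j + 1) * AL.ep ((i, j + 1), (i, j + 1)) y =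
      AL.ep ((i + 1, j + 1), (i, j + 1)) y := by
    rw [v3]; linear_combination (AL.ep ((i + 1, j + 1), (i, j + 1)) y) * cc
  have ch := chi_sq (AL.sw i j) y.1
  obtain ⟨k1, k2, k3, k4⟩ := h
  simp only [p4, p5] at k1 k2 k3 k4
  unfold Fld.Rl H170.Rel eF eA eB eC eE
  simp only [p4, p5]
  rw [k1, k2, v1, v2]
  refine ⟨?_, ?_, ?_, ?_⟩
  · linear_combination (-(AL.tauR R (i, j) * X.B (i, j + 1))) * v4
  · linear_combination (AL.tauR R (i, j) * X.A (i, j + 1)) * v3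
  · rw [k3, w1, w2]
    linear_combination (AL.ep ((i + 1, j), (i + 1, j)) y * (√2 * X.A (i + 1, j) -
      X.C (i + 1, j))) * ch
  · rw [← k2, ← v2, k4, w1, w3]
    linear_combination (-AL.ep ((i + 1, j), (i + 1, j)) y * (√2 * X.C (i + 1, j) -
      X.A (i + 1, j))) * ch

theorem mem_sh {c x : Pt} {n : ℕ} : x + c ∈ bx c n ↔ x ∈ bx 0 n := by
  simp only [mem_bx, Prod.fst_add, Prod.snd_add, Prod.fst_zero, Prod.snd_zero]
  lia

theorem lap_sh (h : Pt → ℝ) (c x : Pt) : lap (fun z => h (z + c)) x = lap h (x + c) := by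
  simp only [lap, add_right_comm x _ c, sub_add_eq_add_sub]

theorem gr_sh (U W : Pt → ℝ) (c x : Pt) :
    gr (fun z => U (z + c)) (fun z => W (z + c)) x = gr U W (x + c) := by
  simp only [gr, D, add_right_comm _ _ c, sub_add_eq_add_sub]

theorem cnr_sh (h : Pt → ℝ) (c x : Pt) :
    ∑ v ∈ AL.cnr x, h (v + c) = ∑ v ∈ AL.cnr (x + c), h v := by
  have e : ∀ a b : ℤ, ((x.1 + a, x.2 + b) : Pt) + c = ((x + c).1 + a, (x + c).2 + b) :=
    fun a b => by ext <;> simp only [Prod.fst_add, Prod.snd_add] <;> ring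
  have e1 := e 1 0
  have e2 := e 0 1
  simp only [add_zero] at e1 e2
  rw [AL.sum_cnr, AL.sum_cnr, e1, e2, e 1 1]

section

variable {I : Set Pt} {R : Multiset Site} {y : AL.Cn} {X : Fld} {U W : Pt → ℝ}

/-- The gauge near the source. -/
noncomputable def ga (R : Multiset Site) (y : AL.Cn) (i : ℤ) : ℝ := gg (fun f => f.2 ≤ y.2.2) R i

/-- The spinor in the gauge near the source, with the source at the origin. -/
noncomputable def nF (R : Multiset Site) (y : AL.Cn) (X : Fld) : Fld :=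
  ⟨fun x => ga R y y.1.1 * (ga R y (x + y.2).1 * eA y X.A (x + y.2)),
    fun x => ga R y y.1.1 * (ga R y ((x + y.2).1 + 1) * eB y X.B (x + y.2)),
    fun x => ga R y y.1.1 * (ga R y (x + y.2).1 * eC y X.C (x + y.2)),
    fun x => ga R y y.1.1 * (ga R y ((x + y.2).1 + 1) * eE y X.E (x + y.2))⟩

theorem Spin.glue (h : Spin I R y X U W) {n : ℕ} (hn : 4 ≤ n) (hI : ∀ x ∈ bx y.2 (70 * n), x ∈ I)
    {Q : Fld} {κ : ℂ} (K : PKr (y.1 - y.2) Q.A Q.B Q.C Q.E κ) :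
    Glue n (fun z => U (z + y.2)) (fun z => W (z + y.2)) (nF R y X) Q := by
  have k1 : ∀ c, AL.ep c y ^ 2 = 1 := fun c => by rw [sq, AL.ep_sq]
  have k2 : ∀ i, ga R y i * ga R y i = 1 := fun i => gg_sq _ _ _
  have k3 : ∀ i, ga R y i ^ 2 = 1 := fun i => by rw [sq, k2]
  have y1 : y.1 ∈ bx y.2 1 := by
    have := h.cnr
    rw [AL.mem_cnr] at this
    rw [mem_bx]
    simp only [Prod.ext_iff] at this
    lia
  have ne1 : ∀ x ∉ bx 0 n, x + y.2 ≠ y.1 := fun x hx e =>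
    hx (bx_mono (show 1 ≤ n by lia) ((mem_sh (c := y.2)).1 (by rw [e]; exact y1)))
  have ne2 : ∀ x ∉ bx 0 n, x + y.2 ≠ y.2 := fun x hx e =>
    hx ((mem_sh (c := y.2)).1 (by rw [e]; exact H170.self_mem_bx _ _))
  refine ⟨?_, fun x hx => ?_, fun x hx => ?_, fun x a b => ?_, fun x a => ?_⟩
  · obtain ⟨M, h1, h2⟩ := h.supp
    have : ∀ x ∉ bx 0 (M + y.2.1.natAbs + y.2.2.natAbs), x + y.2 ∉ box M := fun x hx c => hx (by
      rw [H436.mem_box, abs_le, abs_le] at c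
      simp only [mem_bx, Prod.fst_add, Prod.snd_add, Prod.fst_zero, Prod.snd_zero] at c ⊢
      lia)
    exact ⟨_, fun x hx => h1 _ (this x hx), fun x hx => h2 _ (this x hx)⟩
  · rw [lap_sh]
    exact h.lapU _ (ne1 x hx)
  · simp only [lap_sh]
    by_cases c : x ∈ bx 0 (64 * n)
    · exact Or.inl (h.lapI _ (hI _ (mem_sh.2 (bx_mono (by lia) c))) (ne2 x hx))
    · refine Or.inr ⟨c, ?_⟩
      rw [cnr_sh (lap U)]
      refine h.lapW _ (ne2 x hx) fun d => c ?_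
      rw [AL.mem_cnr] at d
      rw [mem_bx] at y1 ⊢
      simp only [Prod.ext_iff, Prod.fst_add, Prod.snd_add, Prod.fst_zero, Prod.snd_zero] at d ⊢
      lia
  · obtain ⟨a1, a2, a3, a4⟩ := h.hh _ (hI _ (mem_sh.2 a))
    simp only [gr_sh, nF, Fld.sq, eA, eB, eC, eE, mul_pow, k1, k3, one_mul,
      add_right_comm x _ y.2]
    exact ⟨a1, a2, a3, a4⟩
  · have s := h.src
    have hs : Src y (ga R y y.1.1) (fun x => ga R y x.1) (fun x => ga R y (x.1 + 1))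
        X.A X.B X.C X.E := by
      refine ⟨fun e => ?_, fun e => ?_, fun e => ?_, fun e => ?_⟩ <;> rw [← e] at s <;>
        have e1 := congrArg (fun c : AL.Cn => c.1.1) e <;> simp only at e1
      · rw [val_A] at s; rw [s, mul_one, e1, k2]
      · rw [val_B] at s; rw [s, mul_one, e1, k2]
      · rw [val_C] at s; rw [s, mul_one, e1, k2]
      · rw [val_E] at s; rw [s, mul_one, e1, k2]
    have m := (mem_sh (c := y.2)).2 a
    have := diff_clean K hs h.cnr (h.rel _ (hI _ m)) (tau_gg fun f hf e => by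
      have := fun c => h.out f hf (hI f c)
      rw [mem_bx] at this m
      lia) (by simp only [Prod.fst_add, k2]) (fun _ => k2 _) (fun _ => k2 _) (by simp) (by simp)
    unfold CR4 at this
    unfold Fld.Rl H170.Rel
    have t0 : AL.tauR 0 x = 1 := AL.cutS_zero _
    simp only [nF, Fld.sub, t0, one_mul, add_right_comm x _ y.2]
    simpa only [add_sub_cancel_right, add_sub_right_comm (x + y.2) _ y.2] using this

theorem val_nF {c : AL.Cn} (hc : c.1 ∈ AL.cnr c.2) (Q : Fld) :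
    val ((nF R y X).sub Q) (c.1 - y.2, c.2 - y.2) =
      ga R y y.1.1 * (ga R y c.1.1 * (AL.ep c y * val X c)) - val Q (c.1 - y.2, c.2 - y.2) := by
  have e : ∀ (a b : ℤ) (x : Pt), (((x.1 + a, x.2 + b) : Pt) - y.2) =
      ((x - y.2).1 + a, (x - y.2).2 + b) := fun a b x => by
    ext <;> simp only [Prod.fst_sub, Prod.snd_sub] <;> ring
  refine cn_cases (p := fun c => val ((nF R y X).sub Q) (c.1 - y.2, c.2 - y.2) =
    ga R y y.1.1 * (ga R y c.1.1 * (AL.ep c y * val X c)) - val Q (c.1 - y.2, c.2 - y.2)) hc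
    (fun x => ?_) (fun x => ?_) (fun x => ?_) fun x => ?_
  · simp only [val_A, nF, Fld.sub, sub_add_cancel, eA]
  · have := e 1 0 x
    simp only [add_zero] at this
    simp only [this, val_B, nF, Fld.sub, sub_add_cancel, eB]
  · have := e 0 1 x
    simp only [add_zero] at this
    simp only [this, val_C, nF, Fld.sub, sub_add_cancel, eC]
  · simp only [e 1 1 x, val_E, nF, Fld.sub, sub_add_cancel, eE]

/-- The bounds near the source and far from it. -/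
theorem Spin.main (h : Spin I R y X U W) {n : ℕ} (hn : 4 ≤ n) (hI : ∀ x ∈ bx y.2 (70 * n), x ∈ I)
    {Q : Fld} {κ : ℂ} (K : PKr (y.1 - y.2) Q.A Q.B Q.C Q.E κ) {q : ℝ} (q0 : 0 ≤ q)
    (hq : ∀ x ∉ bx 0 n, Q.sq x ≤ q / (n : ℝ) ^ 2) {c : AL.Cn} (hc : c.1 ∈ AL.cnr c.2) :
    (c.2 ∈ bx y.2 n → (ga R y y.1.1 * (ga R y c.1.1 * (AL.ep c y * val X c)) -
      val Q (c.1 - y.2, c.2 - y.2)) ^ 2 ≤ 10 ^ 32 * q / (n : ℝ) ^ 2) ∧
    ∀ r : ℕ, 0 < r → (∀ x ∈ bx c.2 (4 * r + 3), x ∈ I ∧ x ∉ bx y.2 (32 * n + 2)) →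
      val X c ^ 2 ≤ 10 ^ 39 * q / (n * r) := by
  obtain ⟨m1, m2⟩ := (h.glue hn hI K).main hn fun x _ b => hq x b
  refine ⟨fun a => ?_, fun r hr a => ?_⟩
  · rw [← val_nF hc, mul_div_assoc]
    have a' : c.2 - y.2 ∈ bx 0 n := (mem_sh (c := y.2)).1 (by rwa [sub_add_cancel])
    exact (val_sq _ _).trans (m1 _ (bx_mono (by lia) a'))
  have hn' : (4 : ℝ) ≤ n := by exact_mod_cast hn
  have hr' : (1 : ℝ) ≤ r := by exact_mod_cast hr
  have b0 : ∀ x ∈ bx c.2 (4 * r + 3), (eF y X).Rl R x := fun x hx => by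
    have := a x hx
    refine rel_ep h.cnr (h.rel x this.1) (fun e => this.2 ?_) fun e => this.2 ?_
    · rw [← e]; exact H170.self_mem_bx _ _
    · rw [e, mem_bx]
      simp only [Prod.fst_add, Prod.snd_add]
      lia
  have b1 := pw (eF y X) R c.2 r hr (fun x hx => b0 x (bx_mono (by lia) hx))
    fun f hf e => h.out f hf (a f e).1
  have b2 := m2 (c.2 - y.2) (4 * r + 2) (fun x => X.sq (x + y.2)) fun x hx => by
    have := a (x + y.2) (by
      simp only [mem_bx, Prod.fst_add, Prod.snd_add, Prod.fst_sub, Prod.snd_sub] at hx ⊢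
      lia)
    rw [gr_sh]
    exact ⟨fun e => this.2 (mem_sh.2 e), (h.hh _ this.1).2.2.2⟩
  have b3 : ∑ x ∈ bx (c.2 - y.2) (4 * r + 2), X.sq (x + y.2) =
      ∑ x ∈ bx c.2 (4 * r + 2), (eF y X).sq x := by
    refine sum_nbij' (fun x => x + y.2) (fun x => x - y.2) (fun x hx => ?_) (fun x hx => ?_)
      (fun x _ => by simp) (fun x _ => by simp) fun x _ => (eF_sq _ _ _).symm <;>
    simp only [mem_bx, Prod.fst_add, Prod.snd_add, Prod.fst_sub, Prod.snd_sub] at hx ⊢ <;>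
    lia
  rw [b3] at b2
  rw [eF_sq] at b1
  refine ((val_sq X c).trans (b1.trans (mul_le_mul_of_nonneg_left b2 (by positivity)))).trans ?_
  have e : 30000 / (r : ℝ) ^ 2 * (10 ^ 33 * (n * (q / n ^ 2)) * (((4 * r + 2 : ℕ) : ℝ) + 2)) =
      3 * 10 ^ 37 * ((4 * r + 4) / r) * q / (n * r) := by
    push_cast
    field_simp
    ring
  rw [e]
  refine div_le_div_of_nonneg_right (mul_le_mul_of_nonneg_right ?_ q0) (by positivity)
  have : (4 * (r : ℝ) + 4) / r ≤ 8 := by rw [div_le_iff₀ (by positivity)]; linarith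
  linarith

end

end Vale.Agent.P144DC
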